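import Vale.Agent.P159.TM.H104.Calc
import Vale.Agent.P159.TM.H870.Strip

/-!
P159 T1, row C4: the model with diagonal masses `m x > 0`, bounded weight `w`, real background
`f` (letters of `H870/Strip`); `Cov_f`, `U = - log (Z f / Z 0)` and the derivatives of `U` and of
expectations along lines of backgrounds.
-/

namespace Vale.Agent.P159.TM.H104

open Real Finset
open Vale.Agent.P159.TM.H870 (gr Zr lin)

variable {V : Type*} [Fintype V]

theorem summable_exp_abs : Summable fun n : ℤ => Real.exp (-|(n : ℝ)|) := by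
  have h1 : Summable fun n : ℕ => Real.exp (-(n : ℝ)) := Real.summable_exp_neg_nat
  refine Summable.of_nat_of_neg ?_ ?_
  · refine h1.congr fun n => ?_
    simp
  · refine h1.congr fun n => ?_
    simp

theorem summable_gauss (C : ℝ) {a : ℝ} (ha : 0 < a) :
    Summable fun n : ℤ => Real.exp (C * |(n : ℝ)| - a * (n : ℝ) ^ 2) := by
  refine Summable.of_nonneg_of_le (fun n => (Real.exp_pos _).le) (fun n => ?_)
    (summable_exp_abs.mul_left (Real.exp ((C + 1) ^ 2 / (4 * a))))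
  rw [← Real.exp_add]
  refine Real.exp_le_exp.2 ?_
  have h1 : (n : ℝ) ^ 2 = |(n : ℝ)| ^ 2 := (sq_abs _).symm
  rw [h1]
  have h2 : 0 ≤ a * (|(n : ℝ)| - (C + 1) / (2 * a)) ^ 2 := by positivity
  have h3 : a * (|(n : ℝ)| - (C + 1) / (2 * a)) ^ 2 =
      a * |(n : ℝ)| ^ 2 - (C + 1) * |(n : ℝ)| + (C + 1) ^ 2 / (4 * a) := by
    field_simp
    ring
  linarith

variable {w : (V → ℤ) → ℝ} {m : V → ℝ} {Wb : ℝ}

/-- weight in the zero background -/
noncomputable def bw (w : (V → ℤ) → ℝ) (m : V → ℝ) (h : V → ℤ) : ℝ := w h * gr m h 0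

theorem em_bw (hm : ∀ x, 0 < m x) (hw0 : ∀ h, 0 ≤ w h) (hwb : ∀ h, w h ≤ Wb)
    (hp : ∃ h, 0 < w h) : EM (bw w m) := by
  classical
  refine ⟨fun h => mul_nonneg (hw0 h) (Real.exp_pos _).le, ?_, fun C => ?_⟩
  · obtain ⟨h, hh⟩ := hp
    exact ⟨h, mul_pos hh (Real.exp_pos _)⟩
  · have h1 := H870.summable_pi_prod (V := V)
      (g := fun x k => Real.exp (C * |(k : ℝ)| - m x / 2 * (k : ℝ) ^ 2))
      (fun x k => (Real.exp_pos _).le) fun x => summable_gauss C (half_pos (hm x))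
    refine Summable.of_nonneg_of_le
      (fun h => mul_nonneg (mul_nonneg (hw0 h) (Real.exp_pos _).le) (Real.exp_pos _).le)
      (fun h => ?_) (h1.mul_left Wb)
    unfold bw gr nh
    rw [mul_assoc, ← Real.exp_add, ← Real.exp_sum]
    refine (mul_le_mul_of_nonneg_right (hwb h) (Real.exp_pos _).le).trans (le_of_eq ?_)
    congr 2
    rw [Finset.mul_sum, ← Finset.sum_neg_distrib, ← Finset.sum_add_distrib]
    refine Finset.sum_congr rfl fun x _ => ?_
    simp only [Pi.zero_apply, sub_zero]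
    ring

/-- pointwise product `m f` -/
def mf (m f : V → ℝ) : V → ℝ := fun x => m x * f x

omit [Fintype V] in
theorem mf_add (m f g : V → ℝ) : mf m (f + g) = mf m f + mf m g := by
  funext x
  simp only [mf, Pi.add_apply, mul_add]

omit [Fintype V] in
theorem mf_smul (m : V → ℝ) (s : ℝ) (f : V → ℝ) : mf m (s • f) = s • mf m f := by
  funext x
  simp only [mf, Pi.smul_apply, smul_eq_mul]
  ring

omit [Fintype V] in
theorem mf_zero (m : V → ℝ) : mf m (0 : V → ℝ) = 0 := by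
  funext x
  simp [mf]

theorem lin_li (m χ : V → ℝ) : lin m χ = li (mf m χ) := by
  funext h
  rfl

/-- the mass energy of a background -/
noncomputable def me (m f : V → ℝ) : ℝ := ∑ x, m x / 2 * f x ^ 2

theorem gr_bg (m f : V → ℝ) (h : V → ℤ) :
    gr m h f = gr m h 0 * Real.exp (li (mf m f) h) * Real.exp (-me m f) := by
  unfold gr li mf me
  rw [← Real.exp_add, ← Real.exp_add]
  congr 1
  rw [← Finset.sum_neg_distrib, ← Finset.sum_neg_distrib, ← Finset.sum_neg_distrib,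
    ← Finset.sum_add_distrib, ← Finset.sum_add_distrib]
  refine Finset.sum_congr rfl fun x _ => ?_
  simp only [Pi.zero_apply, sub_zero]
  ring

theorem sum_gr_eq (w : (V → ℤ) → ℝ) (m f : V → ℝ) (Y : (V → ℤ) → ℝ) :
    ∑' h, w h * gr m h f * Y h = Real.exp (-me m f) * T (bw w m) (mf m f) Y := by
  unfold T bw
  rw [← tsum_mul_left]
  refine tsum_congr fun h => ?_
  rw [gr_bg m f h]
  ring

theorem Zr_eq (w : (V → ℤ) → ℝ) (m f : V → ℝ) :
    Zr w m f = Real.exp (-me m f) * T (bw w m) (mf m f) fun _ => 1 := by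
  rw [← sum_gr_eq]
  unfold Zr
  exact tsum_congr fun h => (mul_one _).symm

theorem Ex_eq (w : (V → ℤ) → ℝ) (m f : V → ℝ) (Y : (V → ℤ) → ℝ) :
    H870.Ex w m f Y = Ex (bw w m) (mf m f) Y := by
  unfold H870.Ex
  rw [sum_gr_eq, Zr_eq, mul_div_mul_left _ _ (Real.exp_pos _).ne']
  rfl

/-- covariance in the background `f` -/
noncomputable def Cf (w : (V → ℤ) → ℝ) (m f : V → ℝ) (F G : (V → ℤ) → ℝ) : ℝ :=
  H870.Ex w m f (fun h => F h * G h) - H870.Ex w m f F * H870.Ex w m f G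

/-- third cumulant in the background `f` -/
noncomputable def K3f (w : (V → ℤ) → ℝ) (m f : V → ℝ) (F G H : (V → ℤ) → ℝ) : ℝ :=
  H870.Ex w m f (fun h => F h * G h * H h) - H870.Ex w m f (fun h => F h * G h) * H870.Ex w m f H
    - H870.Ex w m f (fun h => F h * H h) * H870.Ex w m f G
    - H870.Ex w m f (fun h => G h * H h) * H870.Ex w m f F
    + 2 * H870.Ex w m f F * H870.Ex w m f G * H870.Ex w m f H

theorem Cf_eq (w : (V → ℤ) → ℝ) (m f : V → ℝ) (F G : (V → ℤ) → ℝ) :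
    Cf w m f F G = Cv (bw w m) (mf m f) F G := by
  unfold Cf Cv
  simp only [Ex_eq]

theorem K3f_eq (w : (V → ℤ) → ℝ) (m f : V → ℝ) (F G H : (V → ℤ) → ℝ) :
    K3f w m f F G H = K3 (bw w m) (mf m f) F G H := by
  unfold K3f K3
  simp only [Ex_eq]

theorem Cf_Vr (w : (V → ℤ) → ℝ) (m f χ : V → ℝ) :
    Cf w m f (lin m χ) (lin m χ) = H870.Vr w m f χ := by
  unfold Cf H870.Vr
  simp only [pow_two]

/-- minus the logarithm of the normalised partition function -/
noncomputable def U (w : (V → ℤ) → ℝ) (m f : V → ℝ) : ℝ := -Real.log (Zr w m f / Zr w m 0)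

/-- first derivative of `U` at `f` along `ψ` -/
noncomputable def dU (w : (V → ℤ) → ℝ) (m f ψ : V → ℝ) : ℝ :=
  ∑ x, m x * ψ x * f x - H870.Ex w m f (lin m ψ)

/-- second derivative of `U` at `f` along `ψ`, `φ` -/
noncomputable def ddU (w : (V → ℤ) → ℝ) (m f ψ φ : V → ℝ) : ℝ :=
  ∑ x, m x * ψ x * φ x - Cf w m f (lin m ψ) (lin m φ)

/-- third derivative of `U` at `f` along `ψ`, `φ`, `χ` -/
noncomputable def dddU (w : (V → ℤ) → ℝ) (m f ψ φ χ : V → ℝ) : ℝ :=
  -K3f w m f (lin m ψ) (lin m φ) (lin m χ)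

section

variable (hm : ∀ x, 0 < m x) (hw0 : ∀ h, 0 ≤ w h) (hwb : ∀ h, w h ≤ Wb) (hp : ∃ h, 0 < w h)

include hm hw0 hwb hp

theorem Zr_pos (f : V → ℝ) : 0 < Zr w m f := by
  rw [Zr_eq]
  exact mul_pos (Real.exp_pos _) (T_one_pos (em_bw hm hw0 hwb hp) _)

theorem U_eq (f : V → ℝ) : U w m f = me m f - (Lg (bw w m) (mf m f) - Lg (bw w m) 0) := by
  have hμ := em_bw hm hw0 hwb hp
  have h1 := T_one_pos hμ (mf m f)
  have h0 := T_one_pos hμ (0 : V → ℝ)
  unfold U Lg
  rw [Real.log_div (Zr_pos hm hw0 hwb hp f).ne' (Zr_pos hm hw0 hwb hp 0).ne', Zr_eq, Zr_eq,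
    Real.log_mul (Real.exp_pos _).ne' h1.ne', Real.log_mul (Real.exp_pos _).ne', Real.log_exp,
    Real.log_exp, mf_zero]
  · have : me m (0 : V → ℝ) = 0 := by simp [me]
    rw [this]
    ring
  · rw [mf_zero]
    exact h0.ne'

theorem U_zero : U w m 0 = 0 := by
  unfold U
  rw [div_self (Zr_pos hm hw0 hwb hp 0).ne', Real.log_one, neg_zero]

theorem hasDerivAt_E {F : (V → ℤ) → ℝ} (hF : Gr F) (f ψ : V → ℝ) (s : ℝ) :
    HasDerivAt (fun s : ℝ => H870.Ex w m (f + s • ψ) F)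
      (Cf w m (f + s • ψ) F (lin m ψ)) s := by
  have h1 := hasDerivAt_Ex (em_bw hm hw0 hwb hp) hF (mf m f) (mf m ψ) s
  simp only [Ex_eq, Cf_eq, mf_add, mf_smul, lin_li]
  exact h1

theorem hasDerivAt_C {F G : (V → ℤ) → ℝ} (hF : Gr F) (hG : Gr G) (f ψ : V → ℝ) (s : ℝ) :
    HasDerivAt (fun s : ℝ => Cf w m (f + s • ψ) F G)
      (K3f w m (f + s • ψ) F G (lin m ψ)) s := by
  have h1 := hasDerivAt_Cv (em_bw hm hw0 hwb hp) hF hG (mf m f) (mf m ψ) s
  simp only [Cf_eq, K3f_eq, mf_add, mf_smul, lin_li]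
  exact h1

omit hm hw0 hwb hp in
theorem hasDerivAt_me (m f ψ : V → ℝ) (s : ℝ) :
    HasDerivAt (fun s : ℝ => me m (f + s • ψ)) (∑ x, m x * ψ x * (f + s • ψ) x) s := by
  unfold me
  refine HasDerivAt.fun_sum fun x _ => ?_
  have h1 : HasDerivAt (fun s : ℝ => (f + s • ψ) x) (ψ x) s := by
    simpa using ((hasDerivAt_id s).mul_const (ψ x)).const_add (f x)
  refine ((h1.pow 2).const_mul (m x / 2)).congr_deriv ?_
  push_cast
  ring

theorem hasDerivAt_U (f ψ : V → ℝ) (s : ℝ) :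
    HasDerivAt (fun s : ℝ => U w m (f + s • ψ)) (dU w m (f + s • ψ) ψ) s := by
  have hμ := em_bw hm hw0 hwb hp
  have h1 := hasDerivAt_Lg hμ (mf m f) (mf m ψ) s
  have h2 := (hasDerivAt_me m f ψ s).sub (h1.sub_const (Lg (bw w m) 0))
  unfold dU
  rw [Ex_eq, mf_add, mf_smul, lin_li]
  refine h2.congr_of_eventuallyEq (Filter.Eventually.of_forall fun t => ?_)
  change U w m (f + t • ψ) = _
  rw [U_eq hm hw0 hwb hp, mf_add, mf_smul]
  rfl

theorem hasDerivAt_dU (f ψ φ : V → ℝ) (s : ℝ) :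
    HasDerivAt (fun s : ℝ => dU w m (f + s • φ) ψ) (ddU w m (f + s • φ) ψ φ) s := by
  have h1 := hasDerivAt_E hm hw0 hwb hp (by rw [lin_li]; exact Gr.li _ : Gr (lin m ψ)) f φ s
  have h2 : HasDerivAt (fun s : ℝ => ∑ x, m x * ψ x * (f + s • φ) x)
      (∑ x, m x * ψ x * φ x) s := by
    refine HasDerivAt.fun_sum fun x _ => ?_
    have h3 : HasDerivAt (fun s : ℝ => (f + s • φ) x) (φ x) s := by
      simpa using ((hasDerivAt_id s).mul_const (φ x)).const_add (f x)
    exact h3.const_mul (m x * ψ x)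
  exact h2.sub h1

theorem hasDerivAt_ddU (f ψ φ χ : V → ℝ) (s : ℝ) :
    HasDerivAt (fun s : ℝ => ddU w m (f + s • χ) ψ φ) (dddU w m (f + s • χ) ψ φ χ) s := by
  have h1 := hasDerivAt_C hm hw0 hwb hp (by rw [lin_li]; exact Gr.li _ : Gr (lin m ψ))
    (by rw [lin_li]; exact Gr.li _ : Gr (lin m φ)) f χ s
  exact (h1.const_sub _)

theorem continuous_E {F : (V → ℤ) → ℝ} (hF : Gr F) :
    Continuous fun f : V → ℝ => H870.Ex w m f F := by
  simp only [Ex_eq]
  refine (continuous_Ex (em_bw hm hw0 hwb hp) hF).comp ?_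
  unfold mf
  exact continuous_pi fun x => continuous_const.mul (continuous_apply x)

theorem continuous_C {F G : (V → ℤ) → ℝ} (hF : Gr F) (hG : Gr G) :
    Continuous fun f : V → ℝ => Cf w m f F G :=
  (continuous_E hm hw0 hwb hp (hF.mul hG)).sub
    ((continuous_E hm hw0 hwb hp hF).mul (continuous_E hm hw0 hwb hp hG))

theorem continuous_U : Continuous fun f : V → ℝ => U w m f := by
  have h1 : (fun f : V → ℝ => U w m f) =
      fun f => me m f - (Lg (bw w m) (mf m f) - Lg (bw w m) 0) := by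
    funext f
    exact U_eq hm hw0 hwb hp f
  rw [h1]
  refine Continuous.sub ?_ ((Continuous.comp (continuous_Lg (em_bw hm hw0 hwb hp)) ?_).sub
    continuous_const)
  · unfold me
    exact continuous_finsetSum _ fun x _ => continuous_const.mul ((continuous_apply x).pow 2)
  · unfold mf
    exact continuous_pi fun x => continuous_const.mul (continuous_apply x)

end

end Vale.Agent.P159.TM.H104
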