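import Vale.Agent.P159.TM.H104.Ubd

/-!
P159 T1, row C4 (neutral sector).

* `ddU_le`, `ddUb_le`, `ddUb_nonneg`, `U_taylor_up` : the exact upper bound of the second
  derivative in every background, and positivity of that of `Ub`;
* `Cf_nonneg` : `Cov_f(h_x, h_y) ≥ 0` (from the submodularity of `U`);
* `pair_bound` : the cross term of two nested shells;
* `decouple_U` : the increments of `U` along nested shells are independent;
* `quad_U` : `U` is quadratic along one shell;
* `triBd_of`, `dddUb_le` : the third derivative from block trilinear bounds.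
-/

namespace Vale.Agent.P159.TM.H104

open Real Finset MeasureTheory
open Vale.Agent.P159.TM.H870 (gr Zr lin)
open Vale.Agent.P159.TM.H871 (Wt Ub Gin Sup)

variable {V : Type*} [Fintype V] {W : (V → ℤ) → ℝ} {m : V → ℝ}

/-! ### bilinearity -/

theorem lin_add (m ψ φ : V → ℝ) (h : V → ℤ) : lin m (ψ + φ) h = lin m ψ h + lin m φ h := by
  simp only [lin_li, mf_add, li_add]

theorem lin_smul (m : V → ℝ) (s : ℝ) (ψ : V → ℝ) (h : V → ℤ) :
    lin m (s • ψ) h = s * lin m ψ h := by
  simp only [lin_li, mf_smul, li_smul]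

section

variable (hW : Wt W) (hm : ∀ x, 0 < m x)

theorem ddU_comm (W : (V → ℤ) → ℝ) (m f ψ φ : V → ℝ) : ddU W m f ψ φ = ddU W m f φ ψ := by
  unfold ddU
  rw [Cf_eq, Cf_eq, Cv_comm]
  congr 1
  exact Finset.sum_congr rfl fun x _ => by ring

include hW hm

omit hm in
theorem dU_smul (f ψ : V → ℝ) (s : ℝ) : dU W m f (s • ψ) = s * dU W m f ψ := by
  obtain ⟨C, hC⟩ := hW.bdd
  unfold dU
  have e : lin m (s • ψ) = fun h => s * lin m ψ h := by
    funext h
    exact lin_smul m s ψ h
  rw [e, Ex_eq, Ex_eq, Ex_cmul, mul_sub, Finset.mul_sum]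
  congr 1
  refine Finset.sum_congr rfl fun x _ => ?_
  simp only [Pi.smul_apply, smul_eq_mul]
  ring

theorem ddU_smul (f ψ φ : V → ℝ) (s : ℝ) : ddU W m f ψ (s • φ) = s * ddU W m f ψ φ := by
  obtain ⟨C, hC⟩ := hW.bdd
  have hμ := em_bw hm hW.nonneg hC hW.pos
  unfold ddU
  have e : lin m (s • φ) = fun h => ∑ i ∈ ({()} : Finset Unit), s * lin m φ h := by
    funext h
    simp [lin_smul]
  rw [e, Cf_eq, Cf_eq, Cv_sum hμ _ {()} (fun _ => s) (Gr_lin m ψ) (fun _ => Gr_lin m φ)]
  rw [Finset.sum_singleton, mul_sub, Finset.mul_sum]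
  congr 1
  refine Finset.sum_congr rfl fun x _ => ?_
  simp only [Pi.smul_apply, smul_eq_mul]
  ring

theorem ddU_add (f ψ φ χ : V → ℝ) :
    ddU W m f ψ (φ + χ) = ddU W m f ψ φ + ddU W m f ψ χ := by
  obtain ⟨C, hC⟩ := hW.bdd
  have hμ := em_bw hm hW.nonneg hC hW.pos
  unfold ddU
  have e : lin m (φ + χ) = fun h => ∑ i ∈ (Finset.univ : Finset Bool), (1 : ℝ) *
      (if i then lin m φ h else lin m χ h) := by
    funext h
    simp [lin_add]
  have hg : ∀ i : Bool, Gr fun h : V → ℤ => if i then lin m φ h else lin m χ h := by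
    intro i
    cases i
    · simpa using Gr_lin m χ
    · simpa using Gr_lin m φ
  rw [e, Cf_eq, Cf_eq, Cf_eq, Cv_sum hμ _ Finset.univ (fun _ => (1 : ℝ)) (Gr_lin m ψ) hg]
  simp only [Fintype.sum_bool, one_mul, if_true, Bool.false_eq_true, if_false]
  have e2 : ∑ x, m x * ψ x * (φ + χ) x = ∑ x, m x * ψ x * φ x + ∑ x, m x * ψ x * χ x := by
    rw [← Finset.sum_add_distrib]
    exact Finset.sum_congr rfl fun x _ => by simp only [Pi.add_apply]; ring
  rw [e2]
  ring

/-! ### (i) the exact upper bound -/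

omit hm in
theorem U_even (hm : ∀ x, 0 < m x) (hG : Gin W m) (u : V → ℝ) : U W m (-u) = U W m u := by
  have h1 := hG.U_le hW hm 0 u
  have h2 := hG.U_le hW hm 0 (-u)
  have h0 := hW.U_zero hm
  simp only [zero_add, zero_sub, sub_neg_eq_add] at h1 h2
  rw [h0] at h1 h2
  have h3 : H871.U W m (-u) = H871.U W m u := by linarith
  exact h3

/-- **(c4)(i): the second derivative at any background is at most the one at `0`.** -/
theorem ddU_le (hG : Gin W m) (f u : V → ℝ) : ddU W m f u u ≤ ddU W m 0 u u := by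
  have h1 : ∀ s, HasDerivAt (fun s : ℝ => U W m (f + s • u) - U W m (0 + s • u))
      (dU W m (f + s • u) u - dU W m (0 + s • u) u) s :=
    fun s => (der_U hW hm f u s).sub (der_U hW hm 0 u s)
  have h2 : ∀ s, HasDerivAt (fun s : ℝ => dU W m (f + s • u) u - dU W m (0 + s • u) u)
      (ddU W m (f + s • u) u u - ddU W m (0 + s • u) u u) s :=
    fun s => (der_dU hW hm f u u s).sub (der_dU hW hm 0 u u s)
  have hc : Continuous fun s : ℝ => ddU W m (f + s • u) u u - ddU W m (0 + s • u) u u := by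
    refine ((cont_ddU hW hm u u).comp ?_).sub ((cont_ddU hW hm u u).comp ?_) <;> fun_prop
  have h3 := second_le (q := 0) h1 h2 hc (fun s => by
    have g1 : U W m (f + s • u) + U W m (f - s • u) ≤ 2 * U W m f + 2 * U W m (s • u) :=
      hG.U_le hW hm f (s • u)
    have g2 : U W m (-(s • u)) = U W m (s • u) := U_even hW hm hG (s • u)
    have g0 : U W m 0 = 0 := hW.U_zero hm
    simp only [neg_smul, zero_smul, add_zero, zero_add, ← sub_eq_add_neg, zero_mul, zero_sub]
    rw [g2, g0]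
    linarith)
  simp only [zero_smul, add_zero] at h3
  linarith

/-- the energy of `Ub` is at most the one of `U` at `0` -/
theorem ddUb_le (hG : Gin W m) (f u : V → ℝ) : ddUb W m f u u ≤ ddU W m 0 u u := by
  unfold ddUb
  have h1 : ∫ c in (0 : ℝ)..1, ddU W m (sh f c) u u ≤ ∫ _ in (0 : ℝ)..1, ddU W m 0 u u := by
    refine intervalIntegral.integral_mono_on zero_le_one
      (((cont_ddU hW hm u u).comp (cont_sh f)).intervalIntegrable _ _)
      (continuous_const.intervalIntegrable _ _) fun c _ => ddU_le hW hm hG _ u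
  simpa using h1

theorem ddUb_nonneg (hS : Sup W) (hs : ∀ h, W (h + 1) = W h) (f u : V → ℝ) :
    0 ≤ ddUb W m f u u := by
  have h3 := le_second (q := 0) (fun s => der_Ub hW hm f u s) (fun s => der_dUb hW hm f u u s)
    (cont_ddUb_line hW hm f u u u) (fun s => by
      have g1 := H871.Ub_mid hW hm hS hs f (s • u)
      simp only [neg_smul, zero_smul, add_zero, ← sub_eq_add_neg, zero_mul]
      linarith)
  simpa using h3

/-- **(c4)(i), Taylor form.** -/
theorem U_taylor_up (hG : Gin W m) (f u : V → ℝ) {t : ℝ} (ht : 0 ≤ t) :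
    U W m (f + t • u) ≤ U W m f + t * dU W m f u + t ^ 2 / 2 * ddU W m 0 u u := by
  have h := taylor_up (fun s => der_U hW hm f u s) (fun s => der_dU hW hm f u u s)
    (fun s => ddU_le hW hm hG (f + s • u) u) ht
  simpa using h

/-! ### positivity of the covariances -/

theorem ddU_nonpos (hS : Sup W) (f : V → ℝ) [DecidableEq V] {x y : V} (hxy : x ≠ y) :
    ddU W m f (Pi.single x 1) (Pi.single y 1) ≤ 0 := by
  set u : V → ℝ := Pi.single x 1 with hu
  set v : V → ℝ := Pi.single y 1 with hv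
  have key : ∀ s : ℝ, U W m (f + s • (u + v)) + U W m f ≤
      U W m (f + s • u) + U W m (f + s • v) := by
    intro s
    have h1 : U W m ((f + s • u) ⊔ (f + s • v)) + U W m ((f + s • u) ⊓ (f + s • v)) ≤
        U W m (f + s • u) + U W m (f + s • v) := H871.U_sub hW hm hS (f + s • u) (f + s • v)
    have hux : ∀ z, u z = if z = x then 1 else 0 := by
      intro z
      rw [hu, Pi.single_apply]
    have hvx : ∀ z, v z = if z = y then 1 else 0 := by
      intro z
      rw [hv, Pi.single_apply]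
    rcases le_total 0 s with h0 | h0
    · have e1 : (f + s • u) ⊔ (f + s • v) = f + s • (u + v) := by
        funext z
        simp only [Pi.sup_apply, Pi.add_apply, Pi.smul_apply, smul_eq_mul, hux, hvx]
        by_cases hzx : z = x
        · have hzy : z ≠ y := by rw [hzx]; exact hxy
          rw [if_pos hzx, if_neg hzy]
          have : f z + s * 0 ≤ f z + s * 1 := by linarith
          rw [sup_eq_left.2 this]
          ring
        · by_cases hzy : z = y
          · rw [if_neg hzx, if_pos hzy]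
            have : f z + s * 0 ≤ f z + s * 1 := by linarith
            rw [sup_eq_right.2 this]
            ring
          · rw [if_neg hzx, if_neg hzy]
            simp
      have e2 : (f + s • u) ⊓ (f + s • v) = f := by
        funext z
        simp only [Pi.inf_apply, Pi.add_apply, Pi.smul_apply, smul_eq_mul, hux, hvx]
        by_cases hzx : z = x
        · have hzy : z ≠ y := by rw [hzx]; exact hxy
          rw [if_pos hzx, if_neg hzy]
          have : f z + s * 0 ≤ f z + s * 1 := by linarith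
          rw [inf_eq_right.2 this]
          ring
        · by_cases hzy : z = y
          · rw [if_neg hzx, if_pos hzy]
            have : f z + s * 0 ≤ f z + s * 1 := by linarith
            rw [inf_eq_left.2 this]
            ring
          · rw [if_neg hzx, if_neg hzy]
            simp
      rw [e1, e2] at h1
      exact h1
    · have e1 : (f + s • u) ⊓ (f + s • v) = f + s • (u + v) := by
        funext z
        simp only [Pi.inf_apply, Pi.add_apply, Pi.smul_apply, smul_eq_mul, hux, hvx]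
        by_cases hzx : z = x
        · have hzy : z ≠ y := by rw [hzx]; exact hxy
          rw [if_pos hzx, if_neg hzy]
          have : f z + s * 1 ≤ f z + s * 0 := by linarith
          rw [inf_eq_left.2 this]
          ring
        · by_cases hzy : z = y
          · rw [if_neg hzx, if_pos hzy]
            have : f z + s * 1 ≤ f z + s * 0 := by linarith
            rw [inf_eq_right.2 this]
            ring
          · rw [if_neg hzx, if_neg hzy]
            simp
      have e2 : (f + s • u) ⊔ (f + s • v) = f := by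
        funext z
        simp only [Pi.sup_apply, Pi.add_apply, Pi.smul_apply, smul_eq_mul, hux, hvx]
        by_cases hzx : z = x
        · have hzy : z ≠ y := by rw [hzx]; exact hxy
          rw [if_pos hzx, if_neg hzy]
          have : f z + s * 1 ≤ f z + s * 0 := by linarith
          rw [sup_eq_right.2 this]
          ring
        · by_cases hzy : z = y
          · rw [if_neg hzx, if_pos hzy]
            have : f z + s * 1 ≤ f z + s * 0 := by linarith
            rw [sup_eq_left.2 this]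
            ring
          · rw [if_neg hzx, if_neg hzy]
            simp
      rw [e1, e2] at h1
      linarith
  have h1 : ∀ s, HasDerivAt (fun s : ℝ => U W m (f + s • (u + v)) - U W m (f + s • u) -
      U W m (f + s • v))
      (dU W m (f + s • (u + v)) (u + v) - dU W m (f + s • u) u - dU W m (f + s • v) v) s :=
    fun s => ((der_U hW hm f (u + v) s).sub (der_U hW hm f u s)).sub (der_U hW hm f v s)
  have h2 : ∀ s, HasDerivAt (fun s : ℝ => dU W m (f + s • (u + v)) (u + v) -
      dU W m (f + s • u) u - dU W m (f + s • v) v)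
      (ddU W m (f + s • (u + v)) (u + v) (u + v) - ddU W m (f + s • u) u u -
        ddU W m (f + s • v) v v) s :=
    fun s => ((der_dU hW hm f (u + v) (u + v) s).sub (der_dU hW hm f u u s)).sub
      (der_dU hW hm f v v s)
  have hc : Continuous fun s : ℝ => ddU W m (f + s • (u + v)) (u + v) (u + v) -
      ddU W m (f + s • u) u u - ddU W m (f + s • v) v v := by
    refine ((((cont_ddU hW hm (u + v) (u + v)).comp ?_).sub
      ((cont_ddU hW hm u u).comp ?_))).sub ((cont_ddU hW hm v v).comp ?_) <;> fun_prop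
  have h3 := second_le (q := 0) h1 h2 hc (fun s => by
    have g1 := key s
    have g2 := key (-s)
    simp only [zero_smul, add_zero, zero_mul]
    linarith)
  simp only [zero_smul, add_zero] at h3
  rw [ddU_add hW hm, ddU_comm W m f (u + v) u, ddU_comm W m f (u + v) v, ddU_add hW hm,
    ddU_add hW hm, ddU_comm W m f v u] at h3
  linarith

/-- **`Cov_f(h_x, h_y) ≥ 0`, `x ≠ y`, in every real background.** -/
theorem Cf_nonneg (hS : Sup W) (f : V → ℝ) {x y : V} (hxy : x ≠ y) :
    0 ≤ Cf W m f (co x) (co y) := by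
  classical
  have h1 := ddU_nonpos hW hm hS f hxy
  unfold ddU at h1
  have e0 : ∑ z, m z * (Pi.single x 1 : V → ℝ) z * (Pi.single y 1 : V → ℝ) z = 0 := by
    refine Finset.sum_eq_zero fun z _ => ?_
    by_cases hz : z = x
    · rw [Pi.single_eq_of_ne (by rw [hz]; exact hxy : z ≠ y), mul_zero]
    · rw [Pi.single_eq_of_ne hz, mul_zero, zero_mul]
  rw [e0, Cf_lin hm hW, Finset.sum_eq_single x, Finset.sum_eq_single y] at h1
  · simp only [Pi.single_eq_same, mul_one, zero_sub, Left.neg_nonpos_iff] at h1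
    have hp : 0 < m x * m y := mul_pos (hm x) (hm y)
    by_contra hcon
    push Not at hcon
    have := mul_neg_of_pos_of_neg hp hcon
    linarith
  · intro b _ hb
    rw [Pi.single_eq_of_ne hb, mul_zero]
  · intro h
    exact absurd (Finset.mem_univ y) h
  · intro b _ hb
    refine Finset.sum_eq_zero fun z _ => ?_
    rw [Pi.single_eq_of_ne hb, mul_zero, zero_mul]
  · intro h
    exact absurd (Finset.mem_univ x) h

theorem Hk_nonneg (hS : Sup W) (f : V → ℝ) {x y : V} (hxy : x ≠ y) : 0 ≤ Hk W m f x y := by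
  unfold Hk
  refine intervalIntegral.integral_nonneg zero_le_one fun c _ => ?_
  exact mul_nonneg (mul_pos (hm x) (hm y)).le (Cf_nonneg hW hm hS _ hxy)

/-! ### (iii) nested shells decouple -/

theorem ddUb_sum (hs : ∀ h, W (h + 1) = W h) {ι : Type*} (s : Finset ι) (c : ι → ℝ)
    (ψ : ι → V → ℝ) (f φ : V → ℝ) :
    ddUb W m f (∑ i ∈ s, c i • ψ i) φ = ∑ i ∈ s, c i * ddUb W m f (ψ i) φ := by
  simp only [ddUb_graph hW hm hs]
  have e : ∀ x y : V, Hk W m f x y * (((∑ i ∈ s, c i • ψ i) x - (∑ i ∈ s, c i • ψ i) y) *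
      (φ x - φ y)) = ∑ i ∈ s, c i * (Hk W m f x y * ((ψ i x - ψ i y) * (φ x - φ y))) := by
    intro x y
    simp only [Finset.sum_apply, Pi.smul_apply, smul_eq_mul]
    rw [← Finset.sum_sub_distrib, Finset.sum_mul, Finset.mul_sum]
    exact Finset.sum_congr rfl fun i _ => by ring
  simp only [e]
  rw [Finset.mul_sum]
  have e2 : ∀ x : V, ∑ y, ∑ i ∈ s, c i * (Hk W m f x y * ((ψ i x - ψ i y) * (φ x - φ y))) =
      ∑ i ∈ s, c i * ∑ y, Hk W m f x y * ((ψ i x - ψ i y) * (φ x - φ y)) := by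
    intro x
    rw [Finset.sum_comm]
    exact Finset.sum_congr rfl fun i _ => by rw [Finset.mul_sum]
  simp only [e2]
  rw [← Finset.mul_sum, Finset.sum_comm, Finset.mul_sum]
  refine Finset.sum_congr rfl fun i _ => ?_
  rw [← Finset.mul_sum]
  ring

theorem ddUb_comm (hs : ∀ h, W (h + 1) = W h) (f ψ φ : V → ℝ) :
    ddUb W m f ψ φ = ddUb W m f φ ψ := by
  simp only [ddUb_graph hW hm hs]
  congr 1
  exact Finset.sum_congr rfl fun x _ => Finset.sum_congr rfl fun y _ => by ring

theorem ddUb_smul (hs : ∀ h, W (h + 1) = W h) (f ψ φ : V → ℝ) (c : ℝ) :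
    ddUb W m f (c • ψ) φ = c * ddUb W m f ψ φ := by
  have := ddUb_sum hW hm hs {()} (fun _ => c) (fun _ => ψ) f φ
  simpa using this

/-- **cross term of two nested shells**: `ψ` lives in `S`, `φ = 1` outside `O`. -/
theorem pair_bound (hS : Sup W) (hs : ∀ h, W (h + 1) = W h) (f ψ φ : V → ℝ) (S O : Finset V)
    (hSO : Disjoint S O) (hψ : ∀ x, x ∉ S → ψ x = 0) (hφ : ∀ x, x ∉ O → φ x = 1)
    (hψ0 : ∀ x, 0 ≤ ψ x) (hψ1 : ∀ x, ψ x ≤ 1) (hφ0 : ∀ x, 0 ≤ φ x) (hφ1 : ∀ x, φ x ≤ 1) :
    |ddUb W m f ψ φ| ≤ ∑ x ∈ S, ∑ y ∈ O, Hk W m f x y := by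
  classical
  have hne : ∀ x ∈ S, ∀ y ∈ O, x ≠ y := fun x hx y hy h =>
    (Finset.disjoint_left.1 hSO hx) (h ▸ hy)
  have e1 : ∀ x y : V, Hk W m f x y * ((ψ x - ψ y) * (φ x - φ y)) =
      (if x ∈ S ∧ y ∈ O then Hk W m f x y * (ψ x * (1 - φ y)) else 0) +
      (if y ∈ S ∧ x ∈ O then Hk W m f x y * (ψ y * (1 - φ x)) else 0) := by
    intro x y
    by_cases hx : x ∈ S
    · have hxO : x ∉ O := fun h => (Finset.disjoint_left.1 hSO hx) h
      have f1 := hφ x hxO
      by_cases hy : y ∈ S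
      · have hyO : y ∉ O := fun h => (Finset.disjoint_left.1 hSO hy) h
        rw [if_neg (show ¬ (x ∈ S ∧ y ∈ O) from fun h => hyO h.2),
          if_neg (show ¬ (y ∈ S ∧ x ∈ O) from fun h => hxO h.2), f1, hφ y hyO]
        ring
      · have f2 := hψ y hy
        rw [if_neg (show ¬ (y ∈ S ∧ x ∈ O) from fun h => hy h.1), f1, f2]
        by_cases hyO : y ∈ O
        · rw [if_pos (show x ∈ S ∧ y ∈ O from ⟨hx, hyO⟩)]
          ring
        · rw [if_neg (show ¬ (x ∈ S ∧ y ∈ O) from fun h => hyO h.2), hφ y hyO]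
          ring
    · have f2 := hψ x hx
      rw [if_neg (show ¬ (x ∈ S ∧ y ∈ O) from fun h => hx h.1), f2]
      by_cases hy : y ∈ S
      · have hyO : y ∉ O := fun h => (Finset.disjoint_left.1 hSO hy) h
        rw [hφ y hyO]
        by_cases hxO : x ∈ O
        · rw [if_pos (show y ∈ S ∧ x ∈ O from ⟨hy, hxO⟩)]
          ring
        · rw [if_neg (show ¬ (y ∈ S ∧ x ∈ O) from fun h => hxO h.2), hφ x hxO]
          ring
      · rw [if_neg (show ¬ (y ∈ S ∧ x ∈ O) from fun h => hy h.1), hψ y hy]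
        ring
  have e2 : ∑ x, ∑ y, (if x ∈ S ∧ y ∈ O then Hk W m f x y * (ψ x * (1 - φ y)) else 0) =
      ∑ x ∈ S, ∑ y ∈ O, Hk W m f x y * (ψ x * (1 - φ y)) := by
    rw [← Finset.sum_filter_add_sum_filter_not Finset.univ (fun x => x ∈ S)]
    have z : ∑ x ∈ Finset.univ.filter (fun x => ¬ x ∈ S), ∑ y,
        (if x ∈ S ∧ y ∈ O then Hk W m f x y * (ψ x * (1 - φ y)) else 0) = 0 := by
      refine Finset.sum_eq_zero fun x hx => Finset.sum_eq_zero fun y _ => ?_
      rw [Finset.mem_filter] at hx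
      rw [if_neg (fun h => hx.2 h.1)]
    rw [z, add_zero]
    have e3 : Finset.univ.filter (fun x => x ∈ S) = S := by
      ext x; simp
    rw [e3]
    refine Finset.sum_congr rfl fun x hx => ?_
    rw [← Finset.sum_filter_add_sum_filter_not Finset.univ (fun y => y ∈ O)]
    have z2 : ∑ y ∈ Finset.univ.filter (fun y => ¬ y ∈ O),
        (if x ∈ S ∧ y ∈ O then Hk W m f x y * (ψ x * (1 - φ y)) else 0) = 0 := by
      refine Finset.sum_eq_zero fun y hy => ?_
      rw [Finset.mem_filter] at hy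
      rw [if_neg (fun h => hy.2 h.2)]
    have e4 : Finset.univ.filter (fun y => y ∈ O) = O := by
      ext x; simp
    rw [z2, add_zero, e4]
    exact Finset.sum_congr rfl fun y hy => by rw [if_pos ⟨hx, hy⟩]
  have e5 : ∑ x, ∑ y, (if y ∈ S ∧ x ∈ O then Hk W m f x y * (ψ y * (1 - φ x)) else 0) =
      ∑ x ∈ S, ∑ y ∈ O, Hk W m f x y * (ψ x * (1 - φ y)) := by
    rw [← e2, Finset.sum_comm]
    refine Finset.sum_congr rfl fun x _ => Finset.sum_congr rfl fun y _ => ?_
    rw [Hk_symm W m f y x]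
  rw [ddUb_graph hW hm hs]
  simp only [e1, Finset.sum_add_distrib]
  rw [e2, e5]
  have e6 : 1 / 2 * (∑ x ∈ S, ∑ y ∈ O, Hk W m f x y * (ψ x * (1 - φ y)) +
      ∑ x ∈ S, ∑ y ∈ O, Hk W m f x y * (ψ x * (1 - φ y))) =
      ∑ x ∈ S, ∑ y ∈ O, Hk W m f x y * (ψ x * (1 - φ y)) := by ring
  rw [e6]
  refine (Finset.abs_sum_le_sum_abs _ _).trans (Finset.sum_le_sum fun x hx => ?_)
  refine (Finset.abs_sum_le_sum_abs _ _).trans (Finset.sum_le_sum fun y hy => ?_)
  have h0 := Hk_nonneg hW hm hS f (hne x hx y hy)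
  have h1 : 0 ≤ ψ x * (1 - φ y) := mul_nonneg (hψ0 x) (by linarith [hφ1 y])
  have h2 : ψ x * (1 - φ y) ≤ 1 := by
    have := hψ1 x
    have := hψ0 x
    have := hφ0 y
    have := hφ1 y
    nlinarith
  rw [abs_of_nonneg (mul_nonneg h0 h1)]
  nlinarith

/-- averaged covariances from covariances at the shifted backgrounds -/
theorem Hk_sum_le (f : V → ℝ) (S O : Finset V) {e : ℝ}
    (h : ∀ c ∈ Set.Icc (0 : ℝ) 1, ∑ x ∈ S, ∑ y ∈ O,
      m x * m y * Cf W m (sh f c) (co x) (co y) ≤ e) :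
    ∑ x ∈ S, ∑ y ∈ O, Hk W m f x y ≤ e := by
  have hc : ∀ x y, Continuous fun c : ℝ => m x * m y * Cf W m (sh f c) (co x) (co y) :=
    fun x y => cont_Cco hW hm f x y
  have hc1 : ∀ x, Continuous fun c : ℝ =>
      ∑ y ∈ O, m x * m y * Cf W m (sh f c) (co x) (co y) :=
    fun x => continuous_finsetSum _ fun y _ => hc x y
  have hc2 : Continuous fun c : ℝ =>
      ∑ x ∈ S, ∑ y ∈ O, m x * m y * Cf W m (sh f c) (co x) (co y) :=
    continuous_finsetSum _ fun x _ => hc1 x
  have e1 : ∑ x ∈ S, ∑ y ∈ O, Hk W m f x y = ∫ c in (0 : ℝ)..1,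
      ∑ x ∈ S, ∑ y ∈ O, m x * m y * Cf W m (sh f c) (co x) (co y) := by
    rw [intervalIntegral.integral_finsetSum fun x _ => (hc1 x).intervalIntegrable _ _]
    refine Finset.sum_congr rfl fun x _ => ?_
    rw [intervalIntegral.integral_finsetSum fun y _ => (hc x y).intervalIntegrable _ _]
    rfl
  rw [e1]
  have h1 : ∫ c in (0 : ℝ)..1, ∑ x ∈ S, ∑ y ∈ O,
      m x * m y * Cf W m (sh f c) (co x) (co y) ≤ ∫ _ in (0 : ℝ)..1, e :=
    intervalIntegral.integral_mono_on zero_le_one (hc2.intervalIntegrable _ _)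
      (continuous_const.intervalIntegrable _ _) h
  simpa using h1

/-- **increments of `Ub` along shells with small cross terms.** -/
theorem decouple_Ub (hs : ∀ h, W (h + 1) = W h) {ι : Type*} [Fintype ι] [DecidableEq ι]
    (g : V → ℝ) (ψ : ι → V → ℝ) (t : ι → ℝ) {T e0 : ℝ} (ht : ∀ i, |t i| ≤ T) (he0 : 0 ≤ e0)
    (hpair : ∀ s : ι → ℝ, (∀ i, |s i| ≤ T) → ∀ j k, j ≠ k →
      |ddUb W m (g + ∑ i, s i • ψ i) (ψ j) (ψ k)| ≤ e0) :
    |Ub W m (g + ∑ i, t i • ψ i) - Ub W m g - ∑ i, (Ub W m (g + t i • ψ i) - Ub W m g)| ≤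
      (Fintype.card ι : ℝ) * ((Fintype.card ι : ℝ) * (T ^ 2 * e0)) := by
  classical
  rcases isEmpty_or_nonempty ι with hι | ⟨⟨i0⟩⟩
  · simp
  have hT : 0 ≤ T := (abs_nonneg _).trans (ht i0)
  have h := H215.incr_split (Ub W m) g (fun i => t i • ψ i)
    (M := (Fintype.card ι : ℝ) * (T ^ 2 * e0)) Finset.univ ?_
  · simpa [Finset.card_univ] using h
  intro s k _ _ hk
  set u : V → ℝ := ∑ i ∈ s, t i • ψ i with hu
  set v : V → ℝ := t k • ψ k with hv
  have hb : ∀ a ∈ Set.Icc (0 : ℝ) 1, ∀ b ∈ Set.Icc (0 : ℝ) 1,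
      |ddUb W m (g + a • u + b • v) u v| ≤ (Fintype.card ι : ℝ) * (T ^ 2 * e0) := by
    intro a ha b hb
    set r : ι → ℝ := fun i => if i = k then b * t k else if i ∈ s then a * t i else 0 with hr
    have hrb : ∀ i, |r i| ≤ T := by
      intro i
      rw [hr]
      simp only
      split_ifs
      · rw [abs_mul, abs_of_nonneg hb.1]
        calc b * |t k| ≤ 1 * |t k| := mul_le_mul_of_nonneg_right hb.2 (abs_nonneg _)
          _ ≤ T := by rw [one_mul]; exact ht k
      · rw [abs_mul, abs_of_nonneg ha.1]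
        calc a * |t i| ≤ 1 * |t i| := mul_le_mul_of_nonneg_right ha.2 (abs_nonneg _)
          _ ≤ T := by rw [one_mul]; exact ht i
      · rw [abs_zero]; exact hT
    have hbg : g + a • u + b • v = g + ∑ i, r i • ψ i := by
      have e1 : ∑ i, r i • ψ i = ∑ i ∈ s, r i • ψ i + r k • ψ k := by
        rw [← Finset.sum_subset (Finset.subset_univ (insert k s))]
        · rw [Finset.sum_insert hk, add_comm]
        · intro i _ hi
          rw [Finset.mem_insert, not_or] at hi
          rw [hr]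
          simp only
          rw [if_neg hi.1, if_neg hi.2, zero_smul]
      have e2 : ∑ i ∈ s, r i • ψ i = a • u := by
        rw [hu, Finset.smul_sum]
        refine Finset.sum_congr rfl fun i hi => ?_
        have hik : i ≠ k := fun h => hk (h ▸ hi)
        rw [hr]
        simp only
        rw [if_neg hik, if_pos hi, smul_smul]
      have e3 : r k • ψ k = b • v := by
        rw [hr, hv, smul_smul]
        simp
      rw [e1, e2, e3, add_assoc]
    rw [hbg, hu, ddUb_sum hW hm hs]
    refine (Finset.abs_sum_le_sum_abs _ _).trans ?_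
    have hterm : ∀ i ∈ s, |t i * ddUb W m (g + ∑ i, r i • ψ i) (ψ i) v| ≤ T ^ 2 * e0 := by
      intro i hi
      have hik : i ≠ k := fun h => hk (h ▸ hi)
      rw [hv, ddUb_comm hW hm hs, ddUb_smul hW hm hs, ddUb_comm hW hm hs, abs_mul, abs_mul]
      have h1 := hpair r hrb i k hik
      have h2 : |t i| * (|t k| * |ddUb W m (g + ∑ i, r i • ψ i) (ψ i) (ψ k)|) ≤
          T * (T * e0) :=
        mul_le_mul (ht i) (mul_le_mul (ht k) h1 (abs_nonneg _) hT) (by positivity) hT
      refine h2.trans (le_of_eq (by ring))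
    refine (Finset.sum_le_sum hterm).trans ?_
    rw [Finset.sum_const, nsmul_eq_mul]
    refine mul_le_mul_of_nonneg_right ?_ (by positivity)
    exact_mod_cast Finset.card_le_univ s
  have hmix := H215.mixed_diff (φ := fun a b => Ub W m (g + a • u + b • v))
    (φ' := fun a b => dUb W m (g + a • u + b • v) u)
    (φ'' := fun a b => ddUb W m (g + a • u + b • v) u v)
    (M := (Fintype.card ι : ℝ) * (T ^ 2 * e0))
    (fun a _ b _ => by
      have h1 := der_Ub hW hm (g + b • v) u a
      have e : ∀ a : ℝ, g + b • v + a • u = g + a • u + b • v := fun a => by abel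
      simp only [e] at h1
      exact h1)
    (fun a _ b _ => der_dUb hW hm (g + a • u) u v b) hb
  have e1 : g + (1 : ℝ) • u + (1 : ℝ) • v = g + u + v := by rw [one_smul, one_smul]
  have e2 : g + (1 : ℝ) • u + (0 : ℝ) • v = g + u := by rw [one_smul, zero_smul, add_zero]
  have e3 : g + (0 : ℝ) • u + (1 : ℝ) • v = g + v := by rw [zero_smul, one_smul, add_zero]
  have e4 : g + (0 : ℝ) • u + (0 : ℝ) • v = g := by rw [zero_smul, zero_smul, add_zero, add_zero]
  simp only [e1, e2, e3, e4] at hmix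
  exact hmix

/-- **(c4)(iii): increments of `U` along nested shells.** -/
theorem decouple_U (hs : ∀ h, W (h + 1) = W h) (hG : Gin W m)
    {K : ℝ} (hK : ∀ s : ℝ, H871.U W m (fun _ => s) ≤ K * s ^ 2 / 2)
    {ι : Type*} [Fintype ι] [DecidableEq ι]
    (g : V → ℝ) (ψ : ι → V → ℝ) (t : ι → ℝ) {T e0 : ℝ} (ht : ∀ i, |t i| ≤ T) (he0 : 0 ≤ e0)
    (hpair : ∀ s : ι → ℝ, (∀ i, |s i| ≤ T) → ∀ j k, j ≠ k →
      |ddUb W m (g + ∑ i, s i • ψ i) (ψ j) (ψ k)| ≤ e0) :
    |U W m (g + ∑ i, t i • ψ i) - U W m g - ∑ i, (U W m (g + t i • ψ i) - U W m g)| ≤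
      (Fintype.card ι : ℝ) * ((Fintype.card ι : ℝ) * (T ^ 2 * e0)) +
        ((Fintype.card ι : ℝ) + 1) * (K / 2) := by
  have h1 := decouple_Ub hW hm hs g ψ t ht he0 hpair
  have h2 : ∀ f, |U W m f - Ub W m f| ≤ K / 4 := fun f => H871.U_sub_Ub hW hm hs hG hK f
  have e : U W m (g + ∑ i, t i • ψ i) - U W m g - ∑ i, (U W m (g + t i • ψ i) - U W m g) =
      (Ub W m (g + ∑ i, t i • ψ i) - Ub W m g - ∑ i, (Ub W m (g + t i • ψ i) - Ub W m g)) +
      ((U W m (g + ∑ i, t i • ψ i) - Ub W m (g + ∑ i, t i • ψ i)) - (U W m g - Ub W m g) -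
        ∑ i, ((U W m (g + t i • ψ i) - Ub W m (g + t i • ψ i)) - (U W m g - Ub W m g))) := by
    simp only [Finset.sum_sub_distrib]
    ring
  rw [e]
  refine (abs_add_le _ _).trans (add_le_add h1 ?_)
  refine (abs_sub _ _).trans ?_
  have a1 : |(U W m (g + ∑ i, t i • ψ i) - Ub W m (g + ∑ i, t i • ψ i)) -
      (U W m g - Ub W m g)| ≤ K / 2 := by
    refine (abs_sub _ _).trans ?_
    linarith [h2 (g + ∑ i, t i • ψ i), h2 g]
  have a2 : |∑ i, ((U W m (g + t i • ψ i) - Ub W m (g + t i • ψ i)) -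
      (U W m g - Ub W m g))| ≤ (Fintype.card ι : ℝ) * (K / 2) := by
    refine (Finset.abs_sum_le_sum_abs _ _).trans ?_
    have : ∀ i ∈ (Finset.univ : Finset ι), |(U W m (g + t i • ψ i) - Ub W m (g + t i • ψ i)) -
        (U W m g - Ub W m g)| ≤ K / 2 := by
      intro i _
      refine (abs_sub _ _).trans ?_
      linarith [h2 (g + t i • ψ i), h2 g]
    refine (Finset.sum_le_sum this).trans (le_of_eq ?_)
    rw [Finset.sum_const, nsmul_eq_mul, Finset.card_univ]
  linarith

/-! ### (iv) `U` is quadratic along one shell -/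

/-- **(c4)(iv)** from a bound of the third derivative of `Ub`. -/
theorem quad_U (hs : ∀ h, W (h + 1) = W h) (hG : Gin W m)
    {K : ℝ} (hK : ∀ s : ℝ, H871.U W m (fun _ => s) ≤ K * s ^ 2 / 2)
    (g ψ : V → ℝ) (t : ℝ) {T e3 : ℝ} (ht : |t| ≤ T)
    (h3 : ∀ s : ℝ, |s| ≤ T → |dddUb W m (g + s • ψ) ψ ψ ψ| ≤ e3) :
    |U W m (g + t • ψ) - U W m g - t * dUb W m g ψ - t ^ 2 / 2 * ddUb W m g ψ ψ| ≤
      e3 * T ^ 3 + K / 2 := by
  have hab : ∀ s ∈ Set.uIcc 0 t, |s| ≤ T := by
    intro s hs'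
    refine le_trans ?_ ht
    rcases le_total 0 t with h | h
    · rw [Set.uIcc_of_le h] at hs'
      rw [abs_of_nonneg hs'.1, abs_of_nonneg h]
      exact hs'.2
    · rw [Set.uIcc_of_ge h] at hs'
      rw [abs_of_nonpos hs'.2, abs_of_nonpos h]
      linarith [hs'.1]
  have h1 := taylor3 (t := t) (M := e3) (fun s _ => der_Ub hW hm g ψ s)
    (fun s _ => der_dUb hW hm g ψ ψ s) (fun s _ => der_ddUb hW hm g ψ ψ ψ s)
    (fun s hs' => h3 s (hab s hs'))
  simp only [zero_smul, add_zero] at h1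
  have h2 : ∀ f, |U W m f - Ub W m f| ≤ K / 4 := fun f => H871.U_sub_Ub hW hm hs hG hK f
  have he3 : 0 ≤ e3 := (abs_nonneg _).trans (h3 0 (by
    rw [abs_zero]; exact (abs_nonneg t).trans ht))
  have h4 : e3 * |t| ^ 3 ≤ e3 * T ^ 3 :=
    mul_le_mul_of_nonneg_left (pow_le_pow_left₀ (abs_nonneg _) ht 3) he3
  have e : U W m (g + t • ψ) - U W m g - t * dUb W m g ψ - t ^ 2 / 2 * ddUb W m g ψ ψ =
      (Ub W m (g + t • ψ) - Ub W m g - t * dUb W m g ψ - t ^ 2 / 2 * ddUb W m g ψ ψ) +
      ((U W m (g + t • ψ) - Ub W m (g + t • ψ)) - (U W m g - Ub W m g)) := by ring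
  rw [e]
  refine (abs_add_le _ _).trans (add_le_add (h1.trans h4) ?_)
  refine (abs_sub _ _).trans ?_
  linarith [h2 (g + t • ψ), h2 g]

/-- block trilinear bound of the kernel `T3` from the one of third cumulants -/
theorem triBd_of {I : Type*} [Fintype I] [DecidableEq I] (f : V → ℝ) (β : V → I)
    (K : I → I → I → ℝ)
    (h : ∀ c ∈ Set.Icc (0 : ℝ) 1, ∀ i j k (a b d : V → ℝ), H825.Sub β i 1 a →
      H825.Sub β j 1 b → H825.Sub β k 1 d →
      |K3f W m (sh f c) (lin m a) (lin m b) (lin m d)| ≤ K i j k) :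
    H825.TriBd (T3 W m f) β K := by
  intro i j k a b d ha hb hd
  rw [H825.tri_eq, ← dddUb_kernel hW hm]
  unfold dddUb
  have h1 := intervalIntegral.norm_integral_le_of_norm_le_const (a := (0 : ℝ)) (b := 1)
    (f := fun c : ℝ => dddU W m (sh f c) a b d) (C := K i j k) fun c hc => by
      rw [Set.uIoc_of_le zero_le_one] at hc
      rw [Real.norm_eq_abs]
      unfold dddU
      rw [abs_neg]
      exact h c ⟨hc.1.le, hc.2⟩ i j k a b d ha hb hd
  rw [Real.norm_eq_abs, sub_zero, abs_one, mul_one] at h1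
  exact h1

/-- **third derivative of `Ub` by oscillations** (825's TRI2). -/
theorem dddUb_le (hs : ∀ h, W (h + 1) = W h) {I : Type*} [Fintype I] [DecidableEq I]
    (f : V → ℝ) (β : V → I) (K : I → I → I → ℝ)
    (h : ∀ c ∈ Set.Icc (0 : ℝ) 1, ∀ i j k (a b d : V → ℝ), H825.Sub β i 1 a →
      H825.Sub β j 1 b → H825.Sub β k 1 d →
      |K3f W m (sh f c) (lin m a) (lin m b) (lin m d)| ≤ K i j k)
    (ψ : V → ℝ) (o : I → I → I → ℝ) (ho0 : ∀ i j k, 0 ≤ o i j k)
    (ho : ∀ i j k x y, (β x = i ∨ β x = j ∨ β x = k) → (β y = i ∨ β y = j ∨ β y = k) →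
      |ψ x - ψ y| ≤ o i j k) :
    |dddUb W m f ψ ψ ψ| ≤ 3 * ∑ i, ∑ j, ∑ k, K i j k * o i j k ^ 3 := by
  rw [dddUb_kernel hW hm, ← H825.tri_eq]
  exact H825.tri_le_osc (triBd_of hW hm f β K h) (T3_slot1 hW hm hs f) (T3_slot2 hW hm hs f)
    (T3_slot3 hW hm hs f) ψ o ho0 ho

end

end Vale.Agent.P159.TM.H104
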