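import Mathlib

/-!
P159 T1, row C4 (calculus file, spec-free): a nonnegative weight `μ` on `V → ℤ` with all
exponential moments, its tilts, and the derivatives of its expectations and of its cumulants
along lines.
-/

namespace Vale.Agent.P159.TM.H104

open Real Finset

variable {V : Type*} [Fintype V]

/-- size of `h` -/
noncomputable def nh (h : V → ℤ) : ℝ := ∑ x, |(h x : ℝ)|

theorem nh_nonneg (h : V → ℤ) : 0 ≤ nh h := Finset.sum_nonneg fun _ _ => abs_nonneg _

/-- linear functional -/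
noncomputable def li (u : V → ℝ) (h : V → ℤ) : ℝ := ∑ x, u x * (h x : ℝ)

theorem abs_li (u : V → ℝ) (h : V → ℤ) : |li u h| ≤ ‖u‖ * nh h := by
  unfold li nh
  rw [Finset.mul_sum]
  refine (Finset.abs_sum_le_sum_abs _ _).trans (Finset.sum_le_sum fun x _ => ?_)
  rw [abs_mul]
  exact mul_le_mul_of_nonneg_right (norm_le_pi_norm u x) (abs_nonneg _)

theorem li_add (u v : V → ℝ) (h : V → ℤ) : li (u + v) h = li u h + li v h := by
  simp only [li, Pi.add_apply, add_mul, Finset.sum_add_distrib]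

theorem li_smul (s : ℝ) (v : V → ℝ) (h : V → ℤ) : li (s • v) h = s * li v h := by
  simp only [li, Pi.smul_apply, smul_eq_mul, Finset.mul_sum, mul_assoc]

theorem li_neg (v : V → ℝ) (h : V → ℤ) : li (-v) h = -li v h := by
  simp only [li, Pi.neg_apply, neg_mul, Finset.sum_neg_distrib]

theorem li_sub (u v : V → ℝ) (h : V → ℤ) : li (u - v) h = li u h - li v h := by
  simp only [li, Pi.sub_apply, sub_mul, Finset.sum_sub_distrib]

theorem li_zero (h : V → ℤ) : li (0 : V → ℝ) h = 0 := by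
  simp [li]

/-- at most exponential growth -/
def Gr (F : (V → ℤ) → ℝ) : Prop := ∃ C : ℝ, ∀ h, |F h| ≤ C * Real.exp (C * nh h)

theorem Gr.pos {F : (V → ℤ) → ℝ} (hF : Gr F) :
    ∃ C : ℝ, 0 ≤ C ∧ ∀ h, |F h| ≤ C * Real.exp (C * nh h) := by
  obtain ⟨C, hC⟩ := hF
  refine ⟨C, ?_, hC⟩
  have h1 := (abs_nonneg _).trans (hC 0)
  have h2 : nh (0 : V → ℤ) = 0 := by simp [nh]
  rw [h2, mul_zero, Real.exp_zero, mul_one] at h1
  exact h1

theorem Gr.mk' {F : (V → ℤ) → ℝ} {A B : ℝ} (h1 : ∀ h, |F h| ≤ A * Real.exp (B * nh h)) :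
    Gr F := by
  refine ⟨max (max A 0) B, fun h => (h1 h).trans ?_⟩
  have h2 : A ≤ max (max A 0) B := (le_max_left _ _).trans (le_max_left _ _)
  have h3 : 0 ≤ max (max A 0) B := (le_max_right A 0).trans (le_max_left _ _)
  have h4 : B ≤ max (max A 0) B := le_max_right _ _
  refine mul_le_mul h2 (Real.exp_le_exp.2 ?_) (Real.exp_pos _).le h3
  exact mul_le_mul_of_nonneg_right h4 (nh_nonneg h)

theorem Gr.add {F G : (V → ℤ) → ℝ} (hF : Gr F) (hG : Gr G) : Gr fun h => F h + G h := by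
  obtain ⟨A, hA, hF⟩ := hF.pos
  obtain ⟨B, hB, hG⟩ := hG.pos
  refine Gr.mk' (A := A + B) (B := max A B) fun h => ?_
  refine (abs_add_le _ _).trans ?_
  rw [add_mul]
  refine add_le_add ((hF h).trans ?_) ((hG h).trans ?_)
  · refine mul_le_mul_of_nonneg_left (Real.exp_le_exp.2 ?_) hA
    exact mul_le_mul_of_nonneg_right (le_max_left _ _) (nh_nonneg h)
  · refine mul_le_mul_of_nonneg_left (Real.exp_le_exp.2 ?_) hB
    exact mul_le_mul_of_nonneg_right (le_max_right _ _) (nh_nonneg h)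

theorem Gr.mul {F G : (V → ℤ) → ℝ} (hF : Gr F) (hG : Gr G) : Gr fun h => F h * G h := by
  obtain ⟨A, hA, hF⟩ := hF.pos
  obtain ⟨B, hB, hG⟩ := hG.pos
  refine Gr.mk' (A := A * B) (B := A + B) fun h => ?_
  rw [abs_mul]
  refine (mul_le_mul (hF h) (hG h) (abs_nonneg _) (by positivity)).trans (le_of_eq ?_)
  rw [add_mul, Real.exp_add]
  ring

theorem Gr.neg {F : (V → ℤ) → ℝ} (hF : Gr F) : Gr fun h => -F h := by
  obtain ⟨A, hF⟩ := hF
  exact ⟨A, fun h => by rw [abs_neg]; exact hF h⟩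

theorem Gr.sub {F G : (V → ℤ) → ℝ} (hF : Gr F) (hG : Gr G) : Gr fun h => F h - G h := by
  simpa only [sub_eq_add_neg] using hF.add hG.neg

theorem Gr.const (c : ℝ) : Gr fun _ : V → ℤ => c := by
  refine Gr.mk' (A := |c|) (B := 0) fun h => ?_
  rw [zero_mul, Real.exp_zero, mul_one]

theorem Gr.of_bdd {F : (V → ℤ) → ℝ} {C : ℝ} (h1 : ∀ h, |F h| ≤ C) : Gr F := by
  refine Gr.mk' (A := C) (B := 0) fun h => ?_
  rw [zero_mul, Real.exp_zero, mul_one]
  exact h1 h

theorem Gr.li (u : V → ℝ) : Gr (H104.li u) := by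
  refine Gr.mk' (A := ‖u‖) (B := 1) fun h => (abs_li u h).trans ?_
  refine mul_le_mul_of_nonneg_left ?_ (norm_nonneg _)
  rw [one_mul]
  linarith [Real.add_one_le_exp (nh h)]

theorem Gr.cmul (c : ℝ) {F : (V → ℤ) → ℝ} (hF : Gr F) : Gr fun h => c * F h :=
  (Gr.const c).mul hF

theorem Gr.exp_li (u : V → ℝ) : Gr fun h => Real.exp (H104.li u h) := by
  refine Gr.mk' (A := 1) (B := ‖u‖) fun h => ?_
  rw [abs_of_pos (Real.exp_pos _), one_mul]
  exact Real.exp_le_exp.2 ((le_abs_self _).trans (abs_li u h))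

/-- nonnegative weights with all exponential moments -/
structure EM (μ : (V → ℤ) → ℝ) : Prop where
  nn : ∀ h, 0 ≤ μ h
  pos : ∃ h, 0 < μ h
  sum : ∀ C : ℝ, Summable fun h => μ h * Real.exp (C * nh h)

/-- tilted sum -/
noncomputable def T (μ : (V → ℤ) → ℝ) (u : V → ℝ) (F : (V → ℤ) → ℝ) : ℝ :=
  ∑' h, F h * μ h * Real.exp (li u h)

variable {μ : (V → ℤ) → ℝ}

theorem EM.summ' (hμ : EM μ) {F : (V → ℤ) → ℝ} (hF : Gr F) (R : ℝ) :
    Summable fun h => |F h| * μ h * Real.exp (R * nh h) := by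
  obtain ⟨A, hA, hF⟩ := hF.pos
  refine Summable.of_nonneg_of_le
    (fun h => mul_nonneg (mul_nonneg (abs_nonneg _) (hμ.nn h)) (Real.exp_pos _).le) (fun h => ?_)
    ((hμ.sum (A + R)).mul_left A)
  calc |F h| * μ h * Real.exp (R * nh h)
      ≤ (A * Real.exp (A * nh h)) * μ h * Real.exp (R * nh h) := by
        refine mul_le_mul_of_nonneg_right (mul_le_mul_of_nonneg_right (hF h) (hμ.nn h))
          (Real.exp_pos _).le
    _ = A * (μ h * Real.exp ((A + R) * nh h)) := by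
        rw [add_mul, Real.exp_add]; ring

theorem EM.summ (hμ : EM μ) {F : (V → ℤ) → ℝ} (hF : Gr F) (u : V → ℝ) :
    Summable fun h => F h * μ h * Real.exp (li u h) := by
  refine Summable.of_norm_bounded (hμ.summ' hF ‖u‖) fun h => ?_
  rw [Real.norm_eq_abs, abs_mul, abs_mul, abs_of_nonneg (hμ.nn h), abs_of_pos (Real.exp_pos _)]
  refine mul_le_mul_of_nonneg_left (Real.exp_le_exp.2 ((le_abs_self _).trans (abs_li u h))) ?_
  exact mul_nonneg (abs_nonneg _) (hμ.nn h)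

theorem T_add (hμ : EM μ) {F G : (V → ℤ) → ℝ} (hF : Gr F) (hG : Gr G) (u : V → ℝ) :
    T μ u (fun h => F h + G h) = T μ u F + T μ u G := by
  unfold T
  rw [← (hμ.summ hF u).tsum_add (hμ.summ hG u)]
  exact tsum_congr fun h => by ring

theorem T_sub (hμ : EM μ) {F G : (V → ℤ) → ℝ} (hF : Gr F) (hG : Gr G) (u : V → ℝ) :
    T μ u (fun h => F h - G h) = T μ u F - T μ u G := by
  unfold T
  rw [← (hμ.summ hF u).tsum_sub (hμ.summ hG u)]
  exact tsum_congr fun h => by ring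

theorem T_cmul (c : ℝ) (F : (V → ℤ) → ℝ) (u : V → ℝ) :
    T μ u (fun h => c * F h) = c * T μ u F := by
  unfold T
  rw [← tsum_mul_left]
  exact tsum_congr fun h => by ring

theorem T_nonneg (hμ : EM μ) {F : (V → ℤ) → ℝ} (h0 : ∀ h, 0 ≤ F h) (u : V → ℝ) :
    0 ≤ T μ u F :=
  tsum_nonneg fun h => mul_nonneg (mul_nonneg (h0 h) (hμ.nn h)) (Real.exp_pos _).le

theorem T_mono (hμ : EM μ) {F G : (V → ℤ) → ℝ} (hF : Gr F) (hG : Gr G)
    (h0 : ∀ h, F h ≤ G h) (u : V → ℝ) : T μ u F ≤ T μ u G :=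
  (hμ.summ hF u).tsum_le_tsum (fun h =>
    mul_le_mul_of_nonneg_right (mul_le_mul_of_nonneg_right (h0 h) (hμ.nn h)) (Real.exp_pos _).le)
    (hμ.summ hG u)

theorem T_one_pos (hμ : EM μ) (u : V → ℝ) : 0 < T μ u fun _ => 1 := by
  obtain ⟨h, hh⟩ := hμ.pos
  have h1 := (hμ.summ (Gr.const 1) u).le_tsum h fun k _ =>
    mul_nonneg (mul_nonneg zero_le_one (hμ.nn k)) (Real.exp_pos _).le
  exact lt_of_lt_of_le (by positivity) h1

/-- **derivative of the tilted sum along a line.** -/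
theorem hasDerivAt_T (hμ : EM μ) {F : (V → ℤ) → ℝ} (hF : Gr F) (u v : V → ℝ) (s : ℝ) :
    HasDerivAt (fun s : ℝ => T μ (u + s • v) F) (T μ (u + s • v) fun h => F h * li v h) s := by
  unfold T
  have hb : ∀ z ∈ Metric.ball s 1, ∀ h : V → ℤ,
      li (u + z • v) h ≤ (‖u‖ + (|s| + 1) * ‖v‖) * nh h := by
    intro z hz h
    refine (le_abs_self _).trans ((abs_li _ h).trans ?_)
    refine mul_le_mul_of_nonneg_right ((norm_add_le _ _).trans ?_) (nh_nonneg h)
    refine add_le_add le_rfl ?_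
    rw [norm_smul]
    refine mul_le_mul_of_nonneg_right ?_ (norm_nonneg _)
    rw [Real.norm_eq_abs]
    rw [Metric.mem_ball, Real.dist_eq] at hz
    have := abs_sub_abs_le_abs_sub z s
    linarith
  refine hasDerivAt_tsum_of_isPreconnected (t := Metric.ball s 1) (y₀ := s)
    (g := fun h z => F h * μ h * Real.exp (li (u + z • v) h))
    (g' := fun h z => F h * li v h * μ h * Real.exp (li (u + z • v) h))
    (hμ.summ' (hF.mul (Gr.li v)) (‖u‖ + (|s| + 1) * ‖v‖)) Metric.isOpen_ball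
    (convex_ball s 1).isPreconnected ?_ ?_ (Metric.mem_ball_self one_pos) (hμ.summ hF _)
    (Metric.mem_ball_self one_pos)
  · intro h z _
    have h1 : HasDerivAt (fun z : ℝ => li (u + z • v) h) (li v h) z := by
      have h2 : (fun z : ℝ => li (u + z • v) h) = fun z : ℝ => li u h + z * li v h := by
        funext z
        rw [li_add, li_smul]
      rw [h2]
      simpa using ((hasDerivAt_id z).mul_const (li v h)).const_add (li u h)
    have h3 := (h1.exp).const_mul (F h * μ h)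
    refine h3.congr_deriv ?_
    ring
  · intro h z hz
    rw [Real.norm_eq_abs, abs_mul, abs_mul, abs_of_nonneg (hμ.nn h), abs_of_pos (Real.exp_pos _)]
    refine mul_le_mul_of_nonneg_left (Real.exp_le_exp.2 (hb z hz h)) ?_
    exact mul_nonneg (abs_nonneg _) (hμ.nn h)

/-- continuity of the tilted sum in the tilt -/
theorem continuous_T (hμ : EM μ) {F : (V → ℤ) → ℝ} (hF : Gr F) :
    Continuous fun u : V → ℝ => T μ u F := by
  refine continuous_iff_continuousAt.2 fun u => ?_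
  have h1 : ContinuousOn (fun u : V → ℝ => T μ u F) (Metric.ball 0 (‖u‖ + 1)) := by
    unfold T
    refine continuousOn_tsum (u := fun h => |F h| * μ h * Real.exp ((‖u‖ + 1) * nh h)) ?_
      (hμ.summ' hF _) ?_
    · intro h
      have : Continuous fun u : V → ℝ => li u h := by
        unfold li
        exact continuous_finsetSum _ fun x _ => (continuous_apply x).mul continuous_const
      exact (continuous_const.mul (Real.continuous_exp.comp this)).continuousOn
    · intro h z hz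
      rw [Real.norm_eq_abs, abs_mul, abs_mul, abs_of_nonneg (hμ.nn h),
        abs_of_pos (Real.exp_pos _)]
      refine mul_le_mul_of_nonneg_left (Real.exp_le_exp.2 ?_)
        (mul_nonneg (abs_nonneg _) (hμ.nn h))
      refine (le_abs_self _).trans ((abs_li _ h).trans ?_)
      refine mul_le_mul_of_nonneg_right ?_ (nh_nonneg h)
      rw [Metric.mem_ball, dist_zero_right] at hz
      exact hz.le
  refine h1.continuousAt (Metric.isOpen_ball.mem_nhds ?_)
  rw [Metric.mem_ball, dist_zero_right]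
  linarith

/-- expectation -/
noncomputable def Ex (μ : (V → ℤ) → ℝ) (u : V → ℝ) (F : (V → ℤ) → ℝ) : ℝ :=
  T μ u F / T μ u fun _ => 1

/-- covariance -/
noncomputable def Cv (μ : (V → ℤ) → ℝ) (u : V → ℝ) (F G : (V → ℤ) → ℝ) : ℝ :=
  Ex μ u (fun h => F h * G h) - Ex μ u F * Ex μ u G

/-- third cumulant -/
noncomputable def K3 (μ : (V → ℤ) → ℝ) (u : V → ℝ) (F G H : (V → ℤ) → ℝ) : ℝ :=
  Ex μ u (fun h => F h * G h * H h) - Ex μ u (fun h => F h * G h) * Ex μ u H
    - Ex μ u (fun h => F h * H h) * Ex μ u G - Ex μ u (fun h => G h * H h) * Ex μ u F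
    + 2 * Ex μ u F * Ex μ u G * Ex μ u H

theorem Ex_one (hμ : EM μ) (u : V → ℝ) : Ex μ u (fun _ => 1) = 1 :=
  div_self (T_one_pos hμ u).ne'

theorem Ex_add (hμ : EM μ) {F G : (V → ℤ) → ℝ} (hF : Gr F) (hG : Gr G) (u : V → ℝ) :
    Ex μ u (fun h => F h + G h) = Ex μ u F + Ex μ u G := by
  unfold Ex
  rw [T_add hμ hF hG, add_div]

theorem Ex_sub (hμ : EM μ) {F G : (V → ℤ) → ℝ} (hF : Gr F) (hG : Gr G) (u : V → ℝ) :
    Ex μ u (fun h => F h - G h) = Ex μ u F - Ex μ u G := by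
  unfold Ex
  rw [T_sub hμ hF hG, sub_div]

theorem Ex_cmul (c : ℝ) (F : (V → ℤ) → ℝ) (u : V → ℝ) :
    Ex μ u (fun h => c * F h) = c * Ex μ u F := by
  unfold Ex
  rw [T_cmul, mul_div_assoc]

theorem Ex_const (hμ : EM μ) (c : ℝ) (u : V → ℝ) : Ex μ u (fun _ => c) = c := by
  have h := Ex_cmul (μ := μ) c (fun _ => (1 : ℝ)) u
  simp only [mul_one] at h
  rw [h, Ex_one hμ, mul_one]

theorem Ex_nonneg (hμ : EM μ) {F : (V → ℤ) → ℝ} (h0 : ∀ h, 0 ≤ F h) (u : V → ℝ) :
    0 ≤ Ex μ u F :=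
  div_nonneg (T_nonneg hμ h0 u) (T_one_pos hμ u).le

theorem Ex_mono (hμ : EM μ) {F G : (V → ℤ) → ℝ} (hF : Gr F) (hG : Gr G)
    (h0 : ∀ h, F h ≤ G h) (u : V → ℝ) : Ex μ u F ≤ Ex μ u G :=
  div_le_div_of_nonneg_right (T_mono hμ hF hG h0 u) (T_one_pos hμ u).le

/-- **derivative of an expectation along a line = covariance.** -/
theorem hasDerivAt_Ex (hμ : EM μ) {F : (V → ℤ) → ℝ} (hF : Gr F) (u v : V → ℝ) (s : ℝ) :
    HasDerivAt (fun s : ℝ => Ex μ (u + s • v) F) (Cv μ (u + s • v) F (li v)) s := by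
  have h1 := hasDerivAt_T hμ hF u v s
  have h2 := hasDerivAt_T hμ (Gr.const 1) u v s
  have h3 := (T_one_pos hμ (u + s • v)).ne'
  refine (h1.div h2 h3).congr_deriv ?_
  unfold Cv Ex
  simp only [one_mul]
  field_simp

theorem Cv_comm (u : V → ℝ) (F G : (V → ℤ) → ℝ) : Cv μ u F G = Cv μ u G F := by
  unfold Cv
  simp only [mul_comm]

/-- **derivative of a covariance along a line = third cumulant.** -/
theorem hasDerivAt_Cv (hμ : EM μ) {F G : (V → ℤ) → ℝ} (hF : Gr F) (hG : Gr G)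
    (u v : V → ℝ) (s : ℝ) :
    HasDerivAt (fun s : ℝ => Cv μ (u + s • v) F G) (K3 μ (u + s • v) F G (li v)) s := by
  have h1 := hasDerivAt_Ex hμ (hF.mul hG) u v s
  have h2 := hasDerivAt_Ex hμ hF u v s
  have h3 := hasDerivAt_Ex hμ hG u v s
  refine (h1.sub (h2.mul h3)).congr_deriv ?_
  unfold Cv K3
  ring

/-- logarithm of the tilted partition function -/
noncomputable def Lg (μ : (V → ℤ) → ℝ) (u : V → ℝ) : ℝ := Real.log (T μ u fun _ => 1)

theorem hasDerivAt_Lg (hμ : EM μ) (u v : V → ℝ) (s : ℝ) :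
    HasDerivAt (fun s : ℝ => Lg μ (u + s • v)) (Ex μ (u + s • v) (li v)) s := by
  have h2 := hasDerivAt_T hμ (Gr.const 1) u v s
  have h3 := (T_one_pos hμ (u + s • v)).ne'
  refine (h2.log h3).congr_deriv ?_
  unfold Ex
  simp only [one_mul]

theorem continuous_Ex (hμ : EM μ) {F : (V → ℤ) → ℝ} (hF : Gr F) :
    Continuous fun u : V → ℝ => Ex μ u F :=
  (continuous_T hμ hF).div (continuous_T hμ (Gr.const 1)) fun u => (T_one_pos hμ u).ne'

theorem continuous_Lg (hμ : EM μ) : Continuous fun u : V → ℝ => Lg μ u :=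
  (continuous_T hμ (Gr.const 1)).log fun u => (T_one_pos hμ u).ne'

theorem continuous_Cv (hμ : EM μ) {F G : (V → ℤ) → ℝ} (hF : Gr F) (hG : Gr G) :
    Continuous fun u : V → ℝ => Cv μ u F G :=
  (continuous_Ex hμ (hF.mul hG)).sub ((continuous_Ex hμ hF).mul (continuous_Ex hμ hG))

end Vale.Agent.P159.TM.H104
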