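import Vale.Agent.P159.TM.H859.LogC
import Vale.Agent.P159.TM.H365.Phi

/-!
P159 T1, row C4: cells of side `ξ` of the torus `ZMod N × ZMod N`, `N = n ξ`, indexed by
`ZMod n × ZMod n`; distances of centres; exponential sums over the torus.
-/

namespace Vale.Agent.P159.TM.H104

open Finset
open Vale.Agent.P159.TM.H859 (tn nz rep tn_nonneg nz_nonneg tn_le_nz tn_add_le tn_neg
  abs_fst_le_nz abs_snd_le_nz rep_injective nz_sq)
open Vale.Agent.P159.TM.H365 (qq rr pt pt_qq rr_lt)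

/-! ### exponential sums over `ℤ` -/

theorem summable_exp_c {c : ℝ} (hc : 0 < c) : Summable fun k : ℤ => Real.exp (-(c * |(k : ℝ)|)) := by
  have h1 : Summable fun n : ℕ => Real.exp (-(c * (n : ℝ))) := by
    have := Real.summable_exp_nat_mul_iff (a := -c)
    have h2 := this.2 (by linarith)
    refine h2.congr fun n => ?_
    congr 1
    ring
  refine Summable.of_nat_of_neg ?_ ?_
  · refine h1.congr fun n => ?_
    simp
  · refine h1.congr fun n => ?_
    simp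

/-- `∑ exp(-c |k|)` over `ℤ` -/
noncomputable def Ez (c : ℝ) : ℝ := ∑' k : ℤ, Real.exp (-(c * |(k : ℝ)|))

theorem Ez_nonneg (c : ℝ) : 0 ≤ Ez c := tsum_nonneg fun _ => (Real.exp_pos _).le

/-- sums over `ZMod n` of a function of the centred representative -/
theorem sum_zmod_le {n : ℕ} [NeZero n] {g : ℤ → ℝ} (h0 : ∀ k, 0 ≤ g k) (hg : Summable g) :
    ∑ a : ZMod n, g a.valMinAbs ≤ ∑' k, g k := by
  classical
  have h1 : ∑ a : ZMod n, g a.valMinAbs =
      ∑ k ∈ Finset.univ.image (fun a : ZMod n => a.valMinAbs), g k := by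
    rw [Finset.sum_image]
    intro a _ b _ h
    exact ZMod.injective_valMinAbs h
  rw [h1]
  exact hg.sum_le_tsum _ fun k _ => h0 k

theorem sum_shift_le {n : ℕ} [NeZero n] {c : ℝ} (hc : 0 < c) :
    ∑ a : ZMod n, Real.exp (-(c * |((a.valMinAbs : ℤ) : ℝ)|)) ≤ Ez c :=
  sum_zmod_le (g := fun k : ℤ => Real.exp (-(c * |(k : ℝ)|))) (fun _ => (Real.exp_pos _).le)
    (summable_exp_c hc)

theorem sum_flat_le {n : ℕ} [NeZero n] {c R : ℝ} (hc : 0 < c) (hR : 0 ≤ R) :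
    ∑ a : ZMod n, Real.exp (-(c * max (|((a.valMinAbs : ℤ) : ℝ)| - R) 0)) ≤
      (3 + 2 * Ez c) * (1 + R) := by
  classical
  set R' : ℤ := ⌈R⌉ with hR'
  have hR1 : R ≤ (R' : ℝ) := Int.le_ceil R
  have hR2 : (R' : ℝ) < R + 1 := Int.ceil_lt_add_one R
  have hR0 : 0 ≤ R' := Int.ceil_nonneg hR
  set g : ℤ → ℝ := fun k => (if k ∈ Finset.Icc (-R') R' then (1 : ℝ) else 0) +
    (Real.exp (-(c * |((k - R' : ℤ) : ℝ)|)) + Real.exp (-(c * |((k + R' : ℤ) : ℝ)|))) with hg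
  have s1 : Summable fun k : ℤ => if k ∈ Finset.Icc (-R') R' then (1 : ℝ) else 0 :=
    summable_of_ne_finset_zero (s := Finset.Icc (-R') R') fun k hk => if_neg hk
  have s2 : Summable fun k : ℤ => Real.exp (-(c * |((k - R' : ℤ) : ℝ)|)) :=
    (summable_exp_c hc).comp_injective (Equiv.subRight R').injective
  have s3 : Summable fun k : ℤ => Real.exp (-(c * |((k + R' : ℤ) : ℝ)|)) :=
    (summable_exp_c hc).comp_injective (Equiv.addRight R').injective
  have hgs : Summable g := s1.add (s2.add s3)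
  have hg0 : ∀ k, 0 ≤ g k := by
    intro k
    rw [hg]
    simp only
    have := (Real.exp_pos (-(c * |((k - R' : ℤ) : ℝ)|))).le
    have := (Real.exp_pos (-(c * |((k + R' : ℤ) : ℝ)|))).le
    split_ifs <;> linarith
  have hpt : ∀ k : ℤ, Real.exp (-(c * max (|(k : ℝ)| - R) 0)) ≤ g k := by
    intro k
    have p1 := (Real.exp_pos (-(c * |((k - R' : ℤ) : ℝ)|))).le
    have p2 := (Real.exp_pos (-(c * |((k + R' : ℤ) : ℝ)|))).le
    rw [hg]
    simp only
    by_cases hk : k ∈ Finset.Icc (-R') R'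
    · rw [if_pos hk]
      have : Real.exp (-(c * max (|(k : ℝ)| - R) 0)) ≤ 1 := by
        rw [Real.exp_le_one_iff]
        have : 0 ≤ c * max (|(k : ℝ)| - R) 0 := mul_nonneg hc.le (le_max_right _ _)
        linarith
      linarith
    · rw [if_neg hk, zero_add]
      rw [Finset.mem_Icc, not_and_or, not_le, not_le] at hk
      rcases hk with hk | hk
      · have hk' : (k : ℝ) < -(R' : ℝ) := by exact_mod_cast hk
        have hkneg : (k : ℝ) < 0 := by
          have : (0 : ℝ) ≤ R' := by exact_mod_cast hR0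
          linarith
        have e1 : |((k + R' : ℤ) : ℝ)| = |(k : ℝ)| - R' := by
          push_cast
          rw [abs_of_neg (by linarith), abs_of_neg hkneg]
          ring
        have h2 : Real.exp (-(c * max (|(k : ℝ)| - R) 0)) ≤
            Real.exp (-(c * |((k + R' : ℤ) : ℝ)|)) := by
          refine Real.exp_le_exp.2 (neg_le_neg (mul_le_mul_of_nonneg_left ?_ hc.le))
          rw [e1]
          exact le_max_of_le_left (by linarith)
        linarith
      · have hk' : (R' : ℝ) < (k : ℝ) := by exact_mod_cast hk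
        have hkpos : 0 < (k : ℝ) := by
          have : (0 : ℝ) ≤ R' := by exact_mod_cast hR0
          linarith
        have e1 : |((k - R' : ℤ) : ℝ)| = |(k : ℝ)| - R' := by
          push_cast
          rw [abs_of_pos (by linarith), abs_of_pos hkpos]
        have h2 : Real.exp (-(c * max (|(k : ℝ)| - R) 0)) ≤
            Real.exp (-(c * |((k - R' : ℤ) : ℝ)|)) := by
          refine Real.exp_le_exp.2 (neg_le_neg (mul_le_mul_of_nonneg_left ?_ hc.le))
          rw [e1]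
          exact le_max_of_le_left (by linarith)
        linarith
  refine (Finset.sum_le_sum fun a _ => hpt a.valMinAbs).trans
    ((sum_zmod_le hg0 hgs).trans ?_)
  have t1 : ∑' k : ℤ, (if k ∈ Finset.Icc (-R') R' then (1 : ℝ) else 0) = 2 * R' + 1 := by
    rw [tsum_eq_sum (s := Finset.Icc (-R') R') (fun k hk => if_neg hk)]
    rw [Finset.sum_congr rfl (fun k hk => if_pos hk), Finset.sum_const, Int.card_Icc,
      nsmul_eq_mul, mul_one]
    have : ((R' + 1 - -R').toNat : ℤ) = 2 * R' + 1 := by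
      rw [Int.toNat_of_nonneg (by omega)]
      ring
    exact_mod_cast this
  have t2 : ∑' k : ℤ, Real.exp (-(c * |((k - R' : ℤ) : ℝ)|)) = Ez c :=
    (Equiv.subRight R').tsum_eq (fun k : ℤ => Real.exp (-(c * |(k : ℝ)|)))
  have t3 : ∑' k : ℤ, Real.exp (-(c * |((k + R' : ℤ) : ℝ)|)) = Ez c :=
    (Equiv.addRight R').tsum_eq (fun k : ℤ => Real.exp (-(c * |(k : ℝ)|)))
  rw [hg, s1.tsum_add (s2.add s3), s2.tsum_add s3, t1, t2, t3]
  have := Ez_nonneg c
  nlinarith [mul_nonneg this hR]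

/-! ### sums over the two-dimensional torus -/

section torus

variable {n : ℕ} [NeZero n]

omit [NeZero n] in
theorem tn_ge_fst (x : ZMod n × ZMod n) : |((x.1.valMinAbs : ℤ) : ℝ)| ≤ tn x :=
  abs_fst_le_nz (rep x)

omit [NeZero n] in
theorem tn_ge_snd (x : ZMod n × ZMod n) : |((x.2.valMinAbs : ℤ) : ℝ)| ≤ tn x :=
  abs_snd_le_nz (rep x)

/-- `∑ exp(-c tn)` over the torus -/
theorem sum_exp_tn {c : ℝ} (hc : 0 < c) (i : ZMod n × ZMod n) :
    ∑ j : ZMod n × ZMod n, Real.exp (-(c * tn (i - j))) ≤ Ez (c / 2) ^ 2 := by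
  have h1 : ∑ j : ZMod n × ZMod n, Real.exp (-(c * tn (i - j))) =
      ∑ j : ZMod n × ZMod n, Real.exp (-(c * tn j)) :=
    (Equiv.subLeft i).sum_comp (fun j => Real.exp (-(c * tn j)))
  rw [h1]
  have h2 : ∀ j : ZMod n × ZMod n, Real.exp (-(c * tn j)) ≤
      Real.exp (-(c / 2 * |((j.1.valMinAbs : ℤ) : ℝ)|)) *
        Real.exp (-(c / 2 * |((j.2.valMinAbs : ℤ) : ℝ)|)) := by
    intro j
    rw [← Real.exp_add]
    refine Real.exp_le_exp.2 ?_
    have := tn_ge_fst j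
    have := tn_ge_snd j
    nlinarith
  refine (Finset.sum_le_sum fun j _ => h2 j).trans ?_
  rw [Fintype.sum_prod_type]
  simp only
  rw [← Finset.sum_mul_sum, pow_two]
  have h3 := sum_shift_le (n := n) (half_pos hc)
  exact mul_le_mul h3 h3 (Finset.sum_nonneg fun _ _ => (Real.exp_pos _).le) (Ez_nonneg _)

/-- the sum of `exp(-c (tn - R)₊)` over the torus -/
theorem sum_exp_flat {c R : ℝ} (hc : 0 < c) (hR : 0 ≤ R) (i : ZMod n × ZMod n) :
    ∑ j : ZMod n × ZMod n, Real.exp (-(c * max (tn (j - i) - R) 0)) ≤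
      ((3 + 2 * Ez (c / 2)) * (1 + R)) ^ 2 := by
  have h1 : ∑ j : ZMod n × ZMod n, Real.exp (-(c * max (tn (j - i) - R) 0)) =
      ∑ j : ZMod n × ZMod n, Real.exp (-(c * max (tn j - R) 0)) :=
    (Equiv.subRight i).sum_comp (fun j => Real.exp (-(c * max (tn j - R) 0)))
  rw [h1]
  have h2 : ∀ j : ZMod n × ZMod n, Real.exp (-(c * max (tn j - R) 0)) ≤
      Real.exp (-(c / 2 * max (|((j.1.valMinAbs : ℤ) : ℝ)| - R) 0)) *
        Real.exp (-(c / 2 * max (|((j.2.valMinAbs : ℤ) : ℝ)| - R) 0)) := by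
    intro j
    rw [← Real.exp_add]
    refine Real.exp_le_exp.2 ?_
    have a1 : max (|((j.1.valMinAbs : ℤ) : ℝ)| - R) 0 ≤ max (tn j - R) 0 :=
      max_le_max (by linarith [tn_ge_fst j]) le_rfl
    have a2 : max (|((j.2.valMinAbs : ℤ) : ℝ)| - R) 0 ≤ max (tn j - R) 0 :=
      max_le_max (by linarith [tn_ge_snd j]) le_rfl
    nlinarith
  refine (Finset.sum_le_sum fun j _ => h2 j).trans ?_
  rw [Fintype.sum_prod_type]
  simp only
  rw [← Finset.sum_mul_sum, pow_two]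
  have h3 := sum_flat_le (n := n) (half_pos hc) hR
  exact mul_le_mul h3 h3 (Finset.sum_nonneg fun _ _ => (Real.exp_pos _).le)
    (mul_nonneg (by have := Ez_nonneg (c / 2); linarith) (by linarith))

end torus

/-! ### cells -/

section cells

variable {N n ξ : ℕ} [NeZero N] [NeZero n]

/-- cell of a point -/
def cell (ξ : ℕ) (x : ZMod N × ZMod N) : ZMod n × ZMod n := (qq ξ x.1, qq ξ x.2)

/-- centre of a cell -/
def ctr (N : ℕ) {n : ℕ} (ξ : ℕ) (i : ZMod n × ZMod n) : ZMod N × ZMod N :=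
  (pt N ξ i.1 (ξ / 2), pt N ξ i.2 (ξ / 2))

theorem near_ctr (hN : N = n * ξ) (hξ : 0 < ξ) (x : ZMod N × ZMod N) :
    tn (x - ctr N ξ (cell (n := n) ξ x)) ≤ ξ := by
  have h3 : ((ξ / 2 : ℕ) : ℝ) ≤ (ξ : ℝ) / 2 := Nat.cast_div_le
  have h4 : (ξ : ℝ) ≤ 2 * ((ξ / 2 : ℕ) : ℝ) + 1 := by
    have : ξ ≤ 2 * (ξ / 2) + 1 := by omega
    exact_mod_cast this
  unfold ctr cell
  generalize ξ / 2 = k at h3 h4
  have key : ∀ a : ZMod N, (((((rr ξ a : ℕ) : ℤ) - (k : ℤ) : ℤ)) : ZMod N) =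
      a - pt N ξ (qq (n := n) ξ a) k := by
    intro a
    have h1 := pt_qq (n := n) hN hξ a
    have h2 : a - pt N ξ (qq (n := n) ξ a) k =
        pt N ξ (qq (n := n) ξ a) (rr ξ a) - pt N ξ (qq (n := n) ξ a) k := by rw [h1]
    rw [h2]
    unfold pt
    push_cast
    ring
  have hb : ∀ a : ZMod N, |((((rr ξ a : ℕ) : ℤ) - (k : ℤ) : ℤ) : ℝ)| ≤ (ξ : ℝ) / 2 := by
    intro a
    have h1 : rr ξ a < ξ := rr_lt hξ a
    have h2 : (rr ξ a : ℝ) + 1 ≤ ξ := by exact_mod_cast h1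
    have h5 : (0 : ℝ) ≤ (rr ξ a : ℝ) := by positivity
    push_cast
    rw [abs_le]
    constructor <;> linarith
  refine (tn_le_nz (z := (((rr ξ x.1 : ℕ) : ℤ) - (k : ℤ), ((rr ξ x.2 : ℕ) : ℤ) - (k : ℤ)))
    (key x.1) (key x.2)).trans ?_
  have h1 := hb x.1
  have h2 := hb x.2
  have h5 : nz (((rr ξ x.1 : ℕ) : ℤ) - (k : ℤ), ((rr ξ x.2 : ℕ) : ℤ) - (k : ℤ)) ^ 2 ≤
      (ξ : ℝ) ^ 2 := by
    rw [nz_sq]
    simp only
    have a1 := sq_abs ((((rr ξ x.1 : ℕ) : ℤ) - (k : ℤ) : ℤ) : ℝ)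
    have a2 := sq_abs ((((rr ξ x.2 : ℕ) : ℤ) - (k : ℤ) : ℤ) : ℝ)
    have b1 := pow_le_pow_left₀ (abs_nonneg _) h1 2
    have b2 := pow_le_pow_left₀ (abs_nonneg _) h2 2
    nlinarith [sq_nonneg (ξ : ℝ)]
  exact (abs_le_of_sq_le_sq' h5 (by positivity)).2

omit [NeZero N] in
/-- lower bound of the distance of the centres -/
theorem ctr_ge (hN : N = n * ξ) (hξ : 0 < ξ) (i j : ZMod n × ZMod n) :
    (ξ : ℝ) * tn (i - j) ≤ tn (ctr N ξ i - ctr N ξ j) := by
  have key : ∀ a b : ZMod n, ∃ c : ℤ, (pt N ξ a (ξ / 2) - pt N ξ b (ξ / 2) : ZMod N).valMinAbs =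
      ξ * c ∧ ((c : ℤ) : ZMod n) = a - b := by
    intro a b
    set v := (pt N ξ a (ξ / 2) - pt N ξ b (ξ / 2) : ZMod N).valMinAbs with hv
    have h1 : ((v : ℤ) : ZMod N) = (((ξ : ℤ) * ((a.val : ℤ) - (b.val : ℤ)) : ℤ) : ZMod N) := by
      rw [hv, ZMod.coe_valMinAbs]
      unfold pt
      push_cast
      ring
    have h2 : (N : ℤ) ∣ v - (ξ : ℤ) * ((a.val : ℤ) - (b.val : ℤ)) := by
      rw [← ZMod.intCast_zmod_eq_zero_iff_dvd, Int.cast_sub, h1, sub_self]
    obtain ⟨k, hk⟩ := h2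
    refine ⟨(n : ℤ) * k + ((a.val : ℤ) - (b.val : ℤ)), ?_, ?_⟩
    · rw [hN] at hk
      push_cast at hk
      linarith
    · push_cast
      rw [ZMod.natCast_self, zero_mul, zero_add, ZMod.natCast_zmod_val, ZMod.natCast_zmod_val]
  obtain ⟨c1, h1, h1'⟩ := key i.1 j.1
  obtain ⟨c2, h2, h2'⟩ := key i.2 j.2
  have h3 : tn (i - j) ≤ nz (c1, c2) := tn_le_nz h1' h2'
  have h4 : tn (ctr N ξ i - ctr N ξ j) = (ξ : ℝ) * nz (c1, c2) := by
    have e : rep (ctr N ξ i - ctr N ξ j) = ((ξ : ℤ) * c1, (ξ : ℤ) * c2) := by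
      unfold rep ctr
      simp only [Prod.fst_sub, Prod.snd_sub]
      rw [h1, h2]
    unfold tn
    rw [e]
    unfold nz
    simp only
    push_cast
    rw [show ((ξ : ℝ) * c1) ^ 2 + ((ξ : ℝ) * c2) ^ 2 = (ξ : ℝ) ^ 2 * ((c1 : ℝ) ^ 2 + (c2 : ℝ) ^ 2) by
      ring, Real.sqrt_mul (sq_nonneg _), Real.sqrt_sq (by positivity)]
  rw [h4]
  exact mul_le_mul_of_nonneg_left h3 (by positivity)

/-- upper bound of the distance of the centres -/
theorem ctr_le (i j : ZMod n × ZMod n) (hN : N = n * ξ) :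
    tn (ctr N ξ i - ctr N ξ j) ≤ (ξ : ℝ) * tn (i - j) := by
  have key : ∀ a b : ZMod n, ((((ξ : ℤ) * (a - b).valMinAbs : ℤ)) : ZMod N) =
      pt N ξ a (ξ / 2) - pt N ξ b (ξ / 2) := by
    intro a b
    have h1 : (((a - b).valMinAbs : ℤ) : ZMod n) = (((a.val : ℤ) - (b.val : ℤ) : ℤ) : ZMod n) := by
      rw [ZMod.coe_valMinAbs]
      push_cast
      rw [ZMod.natCast_zmod_val, ZMod.natCast_zmod_val]
    have h2 : (n : ℤ) ∣ (a - b).valMinAbs - ((a.val : ℤ) - (b.val : ℤ)) := by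
      rw [← ZMod.intCast_zmod_eq_zero_iff_dvd, Int.cast_sub, h1, sub_self]
    obtain ⟨k, hk⟩ := h2
    have h3 : (a - b).valMinAbs = (n : ℤ) * k + ((a.val : ℤ) - (b.val : ℤ)) := by linarith
    rw [h3]
    have h4 : ((ξ : ZMod N) * (n : ZMod N)) = 0 := by
      have : ((N : ℕ) : ZMod N) = 0 := ZMod.natCast_self N
      have h5 : ((n * ξ : ℕ) : ZMod N) = 0 := by rw [← hN]; exact this
      push_cast at h5
      rw [mul_comm]
      exact h5
    unfold pt
    push_cast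
    linear_combination (k : ZMod N) * h4
  refine (tn_le_nz (z := ((ξ : ℤ) * (i.1 - j.1).valMinAbs, (ξ : ℤ) * (i.2 - j.2).valMinAbs))
    (key i.1 j.1) (key i.2 j.2)).trans (le_of_eq ?_)
  unfold tn nz rep
  simp only [Prod.fst_sub, Prod.snd_sub]
  push_cast
  rw [show ((ξ : ℝ) * ((i.1 - j.1).valMinAbs : ℝ)) ^ 2 + ((ξ : ℝ) * ((i.2 - j.2).valMinAbs : ℝ)) ^ 2
      = (ξ : ℝ) ^ 2 * (((i.1 - j.1).valMinAbs : ℝ) ^ 2 + ((i.2 - j.2).valMinAbs : ℝ) ^ 2) by
    ring, Real.sqrt_mul (sq_nonneg _), Real.sqrt_sq (by positivity)]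

theorem tn_sub_comm (x y : ZMod N × ZMod N) : tn (x - y) = tn (y - x) := by
  rw [← tn_neg (x - y), neg_sub]

/-- distances of points and of cells -/
theorem cell_le (hN : N = n * ξ) (hξ : 0 < ξ) (x y : ZMod N × ZMod N) :
    tn (x - y) ≤ ξ * (tn (cell (n := n) ξ x - cell (n := n) ξ y) + 2) := by
  have h1 := near_ctr (n := n) hN hξ x
  have h2 := near_ctr (n := n) hN hξ y
  have h3 := ctr_le (cell (n := n) ξ x) (cell (n := n) ξ y) hN
  have e : x - y = (x - ctr N ξ (cell (n := n) ξ x)) +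
      ((ctr N ξ (cell (n := n) ξ x) - ctr N ξ (cell (n := n) ξ y)) +
        (ctr N ξ (cell (n := n) ξ y) - y)) := by abel
  rw [e]
  have h4 := tn_add_le (x - ctr N ξ (cell (n := n) ξ x))
    ((ctr N ξ (cell (n := n) ξ x) - ctr N ξ (cell (n := n) ξ y)) +
        (ctr N ξ (cell (n := n) ξ y) - y))
  have h5 := tn_add_le (ctr N ξ (cell (n := n) ξ x) - ctr N ξ (cell (n := n) ξ y))
    (ctr N ξ (cell (n := n) ξ y) - y)
  rw [tn_sub_comm] at h2
  linarith

theorem le_cell (hN : N = n * ξ) (hξ : 0 < ξ) (x y : ZMod N × ZMod N) :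
    ξ * (tn (cell (n := n) ξ x - cell (n := n) ξ y) - 2) ≤ tn (x - y) := by
  have h1 := near_ctr (n := n) hN hξ x
  have h2 := near_ctr (n := n) hN hξ y
  have h3 := ctr_ge hN hξ (cell (n := n) ξ x) (cell (n := n) ξ y)
  have e : ctr N ξ (cell (n := n) ξ x) - ctr N ξ (cell (n := n) ξ y) =
      (ctr N ξ (cell (n := n) ξ x) - x) + ((x - y) + (y - ctr N ξ (cell (n := n) ξ y))) := by abel
  have h4 := tn_add_le (ctr N ξ (cell (n := n) ξ x) - x)
    ((x - y) + (y - ctr N ξ (cell (n := n) ξ y)))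
  have h5 := tn_add_le (x - y) (y - ctr N ξ (cell (n := n) ξ y))
  rw [← e] at h4
  rw [tn_sub_comm] at h1
  linarith

end cells

end Vale.Agent.P159.TM.H104
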