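import Vale.Agent.P159.TM.H104.Rho
import Vale.Agent.P159.TM.H104.Cells
import Vale.Agent.P159.TM.H365.Phi2
import Vale.Agent.P159.TM.Spec.C

/-!
P159 T1, row C4, (E0): the cross terms of two nested logarithmic shells from `BOut`.
-/

namespace Vale.Agent.P159.TM.H104

open Finset
open Vale.Agent.P159.TM.H859 (tn nz rep tn_nonneg tn_add_le tn_neg abs_tn_sub_le dirE Mn logCut)
open Vale.Agent.P159.TM.H365 (node2 psi psi_eq_one psi_eq_zero psi_nonneg psi_le_one)
open Vale.Agent.P159.TM.H870 (lin)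
open Vale.Agent.P159.TM.H871 (Wt Ub Gin Sup)
open Vale.Agent.P159.TM.SpecC (Tor ms LipT QU BOut)

section

variable {N n ξ : ℕ} [NeZero N] [NeZero n] {w : (Tor N → ℤ) → ℝ}

omit [NeZero N] in
theorem ms_pos (hξ : 0 < ξ) (x : Tor N) : 0 < ms (N := N) (ξ : ℝ) x := by
  unfold ms
  have : (0 : ℝ) < ξ := by exact_mod_cast hξ
  positivity

omit [NeZero N] in
theorem LipT.sh {L : ℝ} {f : Tor N → ℝ} (hf : LipT L f) (c : ℝ) : LipT L (H104.sh f c) := by
  intro x y
  have := hf x y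
  unfold H104.sh
  rw [add_sub_add_right_eq_sub]
  exact this

/-- covariances of two separated sets, from the block covariances -/
theorem cov_sets (hW : Wt w) (hξ : 0 < ξ) (hN : N = n * ξ) {L Cb cb : ℝ}
    (hB : BOut w ξ L Cb cb) (hCb : 0 ≤ Cb) (hcb : 0 ≤ cb) {f : Tor N → ℝ} (hf : LipT L f)
    (S O : Finset (Tor N)) {gap : ℝ} (hgap : ∀ x ∈ S, ∀ y ∈ O, gap ≤ tn (x - y)) :
    ∑ x ∈ S, ∑ y ∈ O, ms (ξ : ℝ) x * ms (ξ : ℝ) y * Cf w (ms ξ) f (co x) (co y) ≤
      (n : ℝ) ^ 4 * (Cb * Real.exp (-(cb * (gap / ξ - 2)))) := by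
  classical
  have hξ' : (0 : ℝ) < ξ := by exact_mod_cast hξ
  have hm : ∀ x : Tor N, 0 < ms (ξ : ℝ) x := ms_pos hξ
  set E := Cb * Real.exp (-(cb * (gap / ξ - 2))) with hE
  have hE0 : 0 ≤ E := mul_nonneg hCb (Real.exp_pos _).le
  set κ : Tor N → Tor N → ℝ := fun x y => ms (ξ : ℝ) x * ms (ξ : ℝ) y * Cf w (ms ξ) f (co x) (co y)
    with hκ
  set β : Tor N → ZMod n × ZMod n := cell ξ with hβ
  have h1 : ∑ x ∈ S, ∑ y ∈ O, κ x y = ∑ i, ∑ j, ∑ x ∈ S.filter (fun x => β x = i),
      ∑ y ∈ O.filter (fun y => β y = j), κ x y := by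
    rw [← Finset.sum_fiberwise S β (fun x => ∑ y ∈ O, κ x y)]
    refine Finset.sum_congr rfl fun i _ => ?_
    have e : ∀ x, ∑ y ∈ O, κ x y = ∑ j, ∑ y ∈ O.filter (fun y => β y = j), κ x y :=
      fun x => (Finset.sum_fiberwise O β (fun y => κ x y)).symm
    simp only [e]
    exact Finset.sum_comm
  rw [h1]
  have h2 : ∀ i j, ∑ x ∈ S.filter (fun x => β x = i), ∑ y ∈ O.filter (fun y => β y = j),
      κ x y ≤ E := by
    intro i j
    rcases Finset.eq_empty_or_nonempty (S.filter fun x => β x = i) with hS | ⟨x, hx⟩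
    · rw [hS, Finset.sum_empty]
      exact hE0
    rcases Finset.eq_empty_or_nonempty (O.filter fun y => β y = j) with hO | ⟨y, hy⟩
    · simp only [hO, Finset.sum_empty, Finset.sum_const_zero]
      exact hE0
    rw [Finset.mem_filter] at hx hy
    set u : Tor N → ℝ := fun z => if z ∈ S.filter (fun x => β x = i) then 1 else 0 with hu
    set v : Tor N → ℝ := fun z => if z ∈ O.filter (fun y => β y = j) then 1 else 0 with hv
    have e1 : ∑ x ∈ S.filter (fun x => β x = i), ∑ y ∈ O.filter (fun y => β y = j), κ x y =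
        Cf w (ms ξ) f (lin (ms ξ) u) (lin (ms ξ) v) := by
      rw [Cf_lin hm hW]
      have a1 : ∀ z, ∑ y, κ z y * u z * v y =
          if z ∈ S.filter (fun x => β x = i) then ∑ y ∈ O.filter (fun y => β y = j), κ z y
          else 0 := by
        intro z
        rw [hu, hv]
        simp only
        by_cases hz : z ∈ S.filter (fun x => β x = i)
        · rw [if_pos hz, if_pos hz]
          simp only [mul_one, mul_ite, mul_zero]
          rw [Finset.sum_ite_mem, Finset.univ_inter]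
        · rw [if_neg hz, if_neg hz]
          simp
      have a2 : ∑ z, ∑ y, κ z y * u z * v y = ∑ z ∈ S.filter (fun x => β x = i),
          ∑ y ∈ O.filter (fun y => β y = j), κ z y := by
        rw [Finset.sum_congr rfl fun z _ => a1 z, Finset.sum_ite_mem, Finset.univ_inter]
      exact a2.symm
    rw [e1]
    have hu01 : ∀ z, 0 ≤ u z ∧ u z ≤ 1 := by
      intro z
      rw [hu]
      simp only
      split_ifs <;> norm_num
    have hv01 : ∀ z, 0 ≤ v z ∧ v z ≤ 1 := by
      intro z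
      rw [hv]
      simp only
      split_ifs <;> norm_num
    have hus : ∀ z, u z ≠ 0 → tn (z - ctr N ξ i) ≤ ξ := by
      intro z hz
      have hz' : z ∈ S.filter (fun x => β x = i) := by
        by_contra hcon
        exact hz (if_neg hcon)
      rw [Finset.mem_filter] at hz'
      have := near_ctr (n := n) hN hξ z
      rw [← hβ, hz'.2] at this
      exact this
    have hvs : ∀ z, v z ≠ 0 → tn (z - ctr N ξ j) ≤ ξ := by
      intro z hz
      have hz' : z ∈ O.filter (fun x => β x = j) := by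
        by_contra hcon
        exact hz (if_neg hcon)
      rw [Finset.mem_filter] at hz'
      have := near_ctr (n := n) hN hξ z
      rw [← hβ, hz'.2] at this
      exact this
    have h3 := hB f hf (ctr N ξ i) (ctr N ξ j) u v hu01 hv01 hus hvs
    refine h3.trans (mul_le_mul_of_nonneg_left (Real.exp_le_exp.2 (neg_le_neg ?_)) hCb)
    have h4 := hgap x hx.1 y hy.1
    have h5 := near_ctr (n := n) hN hξ x
    have h6 := near_ctr (n := n) hN hξ y
    rw [← hβ, hx.2] at h5
    rw [← hβ, hy.2, tn_sub_comm] at h6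
    have e2 : x - y = (x - ctr N ξ i) + ((ctr N ξ i - ctr N ξ j) + (ctr N ξ j - y)) := by abel
    have h7 := tn_add_le (x - ctr N ξ i) ((ctr N ξ i - ctr N ξ j) + (ctr N ξ j - y))
    have h8 := tn_add_le (ctr N ξ i - ctr N ξ j) (ctr N ξ j - y)
    rw [← e2] at h7
    have h9 : gap - 2 * ξ ≤ tn (ctr N ξ i - ctr N ξ j) := by linarith
    have h10 : gap / ξ - 2 ≤ tn (ctr N ξ i - ctr N ξ j) / ξ := by
      rw [le_div_iff₀ hξ', sub_mul, div_mul_cancel₀ _ hξ'.ne']
      exact h9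
    rw [mul_div_assoc]
    exact mul_le_mul_of_nonneg_left h10 hcb
  refine (Finset.sum_le_sum fun i _ => Finset.sum_le_sum fun j _ => h2 i j).trans (le_of_eq ?_)
  rw [Finset.sum_const, Finset.sum_const, Finset.card_univ, Fintype.card_prod, ZMod.card]
  simp only [nsmul_eq_mul]
  push_cast
  ring

variable {M l r : ℕ} [NeZero M]

/-- **(E0)**: cross term of two nested logarithmic shells. -/
theorem E0_lt (hW : Wt w) (hS : Sup w) (hs : ∀ h, w (h + 1) = w h) (hξ : 0 < ξ)
    (hN : N = n * ξ) (hNM : N = M * l) (hl : 0 < l) {L Cb cb : ℝ}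
    (hB : BOut w ξ L Cb cb) (hCb : 0 ≤ Cb) (hcb : 0 ≤ cb) {f : Tor N → ℝ} (hf : LipT L f)
    (u0 : ZMod M × ZMod M) {ρ₁ ρ₂ lam : ℝ} (hρ : 10 ≤ ρ₁) (hlam : 1 < lam)
    (hρ2 : 2 * lam * ρ₁ ≤ ρ₂) :
    |ddUb w (ms ξ) f (psi l r u0 ρ₁ lam) (psi l r u0 ρ₂ lam)| ≤
      (n : ℝ) ^ 4 * (Cb * Real.exp (-(cb * ((l : ℝ) / ξ - 2)))) := by
  classical
  have hm : ∀ x : Tor N, 0 < ms (ξ : ℝ) x := ms_pos hξ
  have hl' : (0 : ℝ) < l := by exact_mod_cast hl
  have hs2 : Real.sqrt 2 ≤ 3 / 2 := by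
    rw [Real.sqrt_le_left (by norm_num)]
    norm_num
  have hs20 : 0 ≤ Real.sqrt 2 := Real.sqrt_nonneg 2
  set S : Finset (Tor N) := Finset.univ.filter fun x => psi l r u0 ρ₁ lam x ≠ 0 with hSdef
  set O : Finset (Tor N) := Finset.univ.filter fun x => psi l r u0 ρ₂ lam x ≠ 1 with hOdef
  have hSx : ∀ x ∈ S, tn (x - node2 N l u0) ≤ (lam * ρ₁ + Real.sqrt 2) * l := by
    intro x hx
    rw [hSdef, Finset.mem_filter] at hx
    by_contra hcon
    push Not at hcon
    exact hx.2 (psi_eq_zero hNM hl u0 (by linarith) hlam hcon.le)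
  have hOy : ∀ y ∈ O, (ρ₂ - Real.sqrt 2) * l ≤ tn (y - node2 N l u0) := by
    intro y hy
    rw [hOdef, Finset.mem_filter] at hy
    by_contra hcon
    push Not at hcon
    exact hy.2 (psi_eq_one hNM hl u0 hcon.le)
  have hgap : ∀ x ∈ S, ∀ y ∈ O, (l : ℝ) ≤ tn (x - y) := by
    intro x hx y hy
    have h1 := hSx x hx
    have h2 := hOy y hy
    have h3 := abs_tn_sub_le (y - node2 N l u0) (x - node2 N l u0)
    rw [sub_sub_sub_cancel_right, tn_sub_comm y x] at h3
    have h4 := (abs_le.1 h3).2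
    have h5 : (10 : ℝ) ≤ lam * ρ₁ := by nlinarith
    have h6 : (l : ℝ) ≤ (ρ₂ - Real.sqrt 2) * l - (lam * ρ₁ + Real.sqrt 2) * l := by
      have : (1 : ℝ) ≤ (ρ₂ - Real.sqrt 2) - (lam * ρ₁ + Real.sqrt 2) := by linarith
      nlinarith
    linarith
  have hdis : Disjoint S O := by
    rw [Finset.disjoint_left]
    intro x hx hy
    have h1 := hgap x hx x hy
    rw [sub_self] at h1
    have h2 : tn (0 : Tor N) = 0 := by
      have : rep (0 : Tor N) = (0, 0) := by
        unfold H859.rep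
        simp
      unfold H859.tn
      rw [this]
      unfold H859.nz
      simp
    rw [h2] at h1
    linarith
  refine (pair_bound hW hm hS hs f (psi l r u0 ρ₁ lam) (psi l r u0 ρ₂ lam) S O hdis ?_ ?_
    (psi_nonneg u0 ρ₁ lam) (psi_le_one u0 ρ₁ lam) (psi_nonneg u0 ρ₂ lam)
    (psi_le_one u0 ρ₂ lam)).trans ?_
  · intro x hx
    rw [hSdef, Finset.mem_filter, not_and, not_not] at hx
    exact hx (Finset.mem_univ x)
  · intro x hx
    rw [hOdef, Finset.mem_filter, not_and, not_not] at hx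
    exact hx (Finset.mem_univ x)
  · refine Hk_sum_le hW hm f S O fun c _ => ?_
    exact cov_sets hW hξ hN hB hCb hcb (LipT.sh hf c) S O hgap

end

end Vale.Agent.P159.TM.H104
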