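import Vale.Agent.P159.TM.H104.E0
import Vale.Agent.P159.TM.H818.Input

/-!
P159 T1, row C4, (E3): the third derivative of `Ub` along one logarithmic shell from `BOut`.
-/

namespace Vale.Agent.P159.TM.H104

open Finset
open Vale.Agent.P159.TM.H859 (tn nz rep tn_nonneg tn_add_le tn_neg abs_tn_sub_le dirE Mn logCut
  rep_injective)
open Vale.Agent.P159.TM.H365 (node2 psi psi_eq_one psi_eq_zero psi_nonneg psi_le_one psi_lip)
open Vale.Agent.P159.TM.H870 (lin)
open Vale.Agent.P159.TM.H871 (Wt Ub Gin Sup)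
open Vale.Agent.P159.TM.SpecC (Tor ms LipT QU BOut)

/-! ### signed test functions -/

section signed

variable {V : Type*} [Fintype V] {W : (V → ℤ) → ℝ} {m : V → ℝ}

theorem Cv_self_nonneg {μ : (V → ℤ) → ℝ} (hμ : EM μ) (u : V → ℝ) {F : (V → ℤ) → ℝ} (hF : Gr F) :
    0 ≤ Cv μ u F F := by
  set c := Ex μ u F with hc
  have h1 := Ex_nonneg hμ (F := fun h => (F h - c) ^ 2) (fun h => sq_nonneg _) u
  have e1 : (fun h => (F h - c) ^ 2) = fun h => F h * F h + (-(2 * c) * F h + c * c) := by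
    funext h
    ring
  rw [e1, Ex_add hμ (hF.mul hF) ((hF.cmul _).add (Gr.const _)),
    Ex_add hμ (hF.cmul _) (Gr.const _), Ex_cmul, Ex_const hμ, ← hc] at h1
  unfold Cv
  rw [← hc]
  linarith

/-- signed functionals -/
theorem Cf_abs_le (hW : Wt W) (hm : ∀ x, 0 < m x) (hS : Sup W) (f u v : V → ℝ) :
    |Cf W m f (lin m u) (lin m v)| ≤
      Cf W m f (lin m fun x => |u x|) (lin m fun x => |v x|) := by
  obtain ⟨C, hC⟩ := hW.bdd
  have hμ := em_bw hm hW.nonneg hC hW.pos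
  have hk : ∀ x y, 0 ≤ m x * m y * Cf W m f (co x) (co y) := by
    intro x y
    refine mul_nonneg (mul_pos (hm x) (hm y)).le ?_
    by_cases hxy : x = y
    · subst hxy
      rw [Cf_eq]
      exact Cv_self_nonneg hμ _ (Gr_co x)
    · exact Cf_nonneg hW hm hS f hxy
  rw [Cf_lin hm hW, Cf_lin hm hW]
  refine (Finset.abs_sum_le_sum_abs _ _).trans (Finset.sum_le_sum fun x _ => ?_)
  refine (Finset.abs_sum_le_sum_abs _ _).trans (Finset.sum_le_sum fun y _ => ?_)
  rw [abs_mul, abs_mul, abs_of_nonneg (hk x y)]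

end signed

/-! ### volume of a ball -/

theorem card_ball {N : ℕ} [NeZero N] (ξ : ℕ) (x0 : ZMod N × ZMod N) :
    ((Finset.univ.filter fun x : ZMod N × ZMod N => tn (x - x0) ≤ ξ).card : ℝ) ≤
      (2 * ξ + 1) ^ 2 := by
  classical
  have h1 : (Finset.univ.filter fun x : ZMod N × ZMod N => tn (x - x0) ≤ ξ).card ≤
      (Finset.Icc (-(ξ : ℤ)) ξ ×ˢ Finset.Icc (-(ξ : ℤ)) ξ).card := by
    refine Finset.card_le_card_of_injOn (fun x => rep (x - x0)) ?_ ?_
    · intro x hx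
      rw [Finset.mem_coe, Finset.mem_filter] at hx
      have a1 := (tn_ge_fst (x - x0)).trans hx.2
      have a2 := (tn_ge_snd (x - x0)).trans hx.2
      rw [abs_le] at a1 a2
      rw [Finset.mem_coe, Finset.mem_product, Finset.mem_Icc, Finset.mem_Icc]
      unfold H859.rep
      simp only
      refine ⟨⟨?_, ?_⟩, ⟨?_, ?_⟩⟩
      · exact_mod_cast a1.1
      · exact_mod_cast a1.2
      · exact_mod_cast a2.1
      · exact_mod_cast a2.2
    · intro x _ y _ h
      have := rep_injective h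
      exact sub_left_injective this
  rw [Finset.card_product, Int.card_Icc] at h1
  have h2 : (((ξ : ℤ) + 1 - -(ξ : ℤ)).toNat : ℤ) = 2 * ξ + 1 := by
    rw [Int.toNat_of_nonneg (by omega)]
    ring
  have h3 : (((ξ : ℤ) + 1 - -(ξ : ℤ)).toNat : ℝ) = 2 * ξ + 1 := by exact_mod_cast h2
  calc ((Finset.univ.filter fun x : ZMod N × ZMod N => tn (x - x0) ≤ ξ).card : ℝ)
      ≤ (((ξ : ℤ) + 1 - -(ξ : ℤ)).toNat : ℝ) * (((ξ : ℤ) + 1 - -(ξ : ℤ)).toNat : ℝ) := by
        exact_mod_cast h1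
    _ = (2 * ξ + 1) ^ 2 := by rw [h3]; ring

section third

variable {N n ξ : ℕ} [NeZero N] [NeZero n] {w : (Tor N → ℤ) → ℝ}

/-- the constant of the third derivative on blocks -/
noncomputable def C3c (Cb : ℝ) : ℝ := 2 * Real.exp 3 / (1 / 3 : ℝ) ^ 2 * Real.sqrt Cb

theorem C3c_nonneg (Cb : ℝ) : 0 ≤ C3c Cb := by unfold C3c; positivity

/-- largest mutual distance of three cells -/
noncomputable def Dm (i j k : ZMod n × ZMod n) : ℝ :=
  max (tn (i - j)) (max (tn (j - k)) (tn (i - k)))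

theorem third_block (hW : Wt w) (hS : Sup w) (hs : ∀ h, w (h + 1) = w h)
    (hev : ∀ h, w (-h) = w h) (hξ : 0 < ξ) (hG : Gin w (ms (N := N) (ξ : ℝ)))
    (hkap : H871.kap w (ms (N := N) (ξ : ℝ)) ≤ 1)
    (hN : N = n * ξ) {L Cb cb : ℝ} (hB : BOut w ξ L Cb cb) (hCb : 0 ≤ Cb) (hcb : 0 ≤ cb)
    {f : Tor N → ℝ} (hf : LipT L f) (i j k : ZMod n × ZMod n) (a b d : Tor N → ℝ)
    (ha : H825.Sub (cell ξ) i 1 a) (hb : H825.Sub (cell ξ) j 1 b)
    (hd : H825.Sub (cell ξ) k 1 d) :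
    |K3f w (ms ξ) f (lin (ms ξ) a) (lin (ms ξ) b) (lin (ms ξ) d)| ≤
      C3c Cb * Real.exp (-(cb / 2 * Dm i j k)) := by
  classical
  have hξ' : (0 : ℝ) < ξ := by exact_mod_cast hξ
  have hm : ∀ x : Tor N, 0 < ms (ξ : ℝ) x := ms_pos hξ
  obtain ⟨C, hC⟩ := hW.bdd
  have hE := H818.E1_kap hW hm hs hS hev hG
  set dd : Tor N → Tor N → ℝ := fun x y => tn (x - y) / ξ with hdd
  have hnear : ∀ (i : ZMod n × ZMod n) (a : Tor N → ℝ), H825.Sub (cell ξ) i 1 a →
      H818.Near dd 1 (ctr N ξ i) a := by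
    intro i a ha
    refine ⟨fun x => (ha x).trans (by split_ifs <;> norm_num), fun x hx => ?_⟩
    by_contra hne
    have h1 := ha x
    have hci : cell ξ x = i := by
      by_contra hcon
      rw [if_neg hcon] at h1
      exact hne (abs_eq_zero.1 (le_antisymm h1 (abs_nonneg _)))
    have h2 := near_ctr (n := n) hN hξ x
    rw [hci, tn_sub_comm] at h2
    rw [hdd] at hx
    simp only at hx
    rw [lt_div_iff₀ hξ'] at hx
    linarith
  have hvol : ∀ (x0 : Tor N) (u : Tor N → ℝ), H818.Near dd 1 x0 u →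
      (1 / 3 : ℝ) ^ 2 * ∑ x, ms (ξ : ℝ) x * u x ^ 2 ≤ 1 := by
    intro x0 u hu
    have h1 : ∀ x, ms (ξ : ℝ) x * u x ^ 2 ≤
        if tn (x - x0) ≤ ξ then 1 / (ξ : ℝ) ^ 2 else 0 := by
      intro x
      by_cases hx : tn (x - x0) ≤ ξ
      · rw [if_pos hx]
        unfold ms
        have h2 : u x ^ 2 ≤ 1 := by
          have := hu.1 x
          rw [abs_le] at this
          nlinarith
        have h3 : (0 : ℝ) ≤ 1 / (ξ : ℝ) ^ 2 := by positivity
        nlinarith
      · rw [if_neg hx]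
        have h2 : u x = 0 := by
          refine hu.2 x ?_
          rw [hdd]
          simp only
          rw [lt_div_iff₀ hξ', tn_sub_comm]
          push Not at hx
          linarith
        rw [h2]
        simp
    have h2 : ∑ x : Tor N, ms (ξ : ℝ) x * u x ^ 2 ≤ (2 * (ξ : ℝ) + 1) ^ 2 * (1 / (ξ : ℝ) ^ 2) := by
      refine (Finset.sum_le_sum fun x _ => h1 x).trans ?_
      rw [← Finset.sum_filter, Finset.sum_const, nsmul_eq_mul]
      exact mul_le_mul_of_nonneg_right (card_ball ξ x0) (by positivity)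
    have h3 : (2 * (ξ : ℝ) + 1) ^ 2 * (1 / (ξ : ℝ) ^ 2) ≤ 9 := by
      have h4 : (1 : ℝ) ≤ ξ := by exact_mod_cast hξ
      rw [mul_one_div, div_le_iff₀ (by positivity)]
      nlinarith
    have := h2.trans h3
    linarith
  have hcl : ∀ (x0 y0 : Tor N) (u v : Tor N → ℝ), H818.Near dd 1 x0 u → H818.Near dd 1 y0 v →
      |Cf w (ms ξ) f (lin (ms ξ) u) (lin (ms ξ) v)| ≤ Cb * Real.exp (-(cb * dd x0 y0)) := by
    intro x0 y0 u v hu hv
    refine (Cf_abs_le hW hm hS f u v).trans ?_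
    have hsup : ∀ (x0 : Tor N) (u : Tor N → ℝ), H818.Near dd 1 x0 u →
        ∀ x, |u x| ≠ 0 → tn (x - x0) ≤ ξ := by
      intro x0 u hu x hx
      by_contra hcon
      push Not at hcon
      refine hx ?_
      rw [hu.2 x ?_, abs_zero]
      rw [hdd]
      simp only
      rw [lt_div_iff₀ hξ', tn_sub_comm]
      linarith
    have h1 := hB f hf x0 y0 (fun x => |u x|) (fun x => |v x|)
      (fun x => ⟨abs_nonneg _, hu.1 x⟩) (fun x => ⟨abs_nonneg _, hv.1 x⟩)
      (hsup x0 u hu) (hsup y0 v hv)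
    refine h1.trans (le_of_eq ?_)
    rw [hdd]
    simp only
    rw [mul_div_assoc]
  have h1 := H818.third_clus hm hW.nonneg hC (w := w) (m := ms (ξ : ℝ)) hS
    (fun f => hW.Z_pos hm f) hE (t := 1 / 3) (by norm_num) hCb hvol f hcl
    (hnear i a ha) (hnear j b hb) (hnear k d hd)
  unfold dddU at h1
  rw [abs_neg] at h1
  refine h1.trans ?_
  have e1 : Real.exp (3 * (H871.kap w (ms (N := N) (ξ : ℝ)) + 1) / 2) ≤ Real.exp 3 :=
    Real.exp_le_exp.2 (by linarith)
  have e2 : Real.exp (-(cb / 2 * max (dd (ctr N ξ i) (ctr N ξ j))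
      (max (dd (ctr N ξ j) (ctr N ξ k)) (dd (ctr N ξ i) (ctr N ξ k))))) ≤
      Real.exp (-(cb / 2 * Dm i j k)) := by
    refine Real.exp_le_exp.2 (neg_le_neg (mul_le_mul_of_nonneg_left ?_ (by positivity)))
    have hge : ∀ i j : ZMod n × ZMod n, tn (i - j) ≤ dd (ctr N ξ i) (ctr N ξ j) := by
      intro i j
      rw [hdd]
      simp only
      rw [le_div_iff₀ hξ', mul_comm]
      exact ctr_ge hN hξ i j
    exact max_le_max (hge i j) (max_le_max (hge j k) (hge i k))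
  unfold C3c
  refine mul_le_mul ?_ e2 (Real.exp_pos _).le (by positivity)
  refine mul_le_mul_of_nonneg_right ?_ (Real.sqrt_nonneg _)
  refine div_le_div_of_nonneg_right ?_ (by norm_num)
  linarith

omit [NeZero N] in
theorem cube_exp {c D : ℝ} (hc : 0 < c) (hD : 0 ≤ D) :
    (D + 2) ^ 3 * Real.exp (-(c * D)) ≤ 6 / c ^ 3 * Real.exp (2 * c) := by
  have h1 := Real.pow_div_factorial_le_exp (c * (D + 2)) (by positivity) 3
  have h2 : ((Nat.factorial 3 : ℕ) : ℝ) = 6 := by norm_num [Nat.factorial]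
  rw [h2, div_le_iff₀ (by norm_num)] at h1
  have h3 : (D + 2) ^ 3 ≤ 6 / c ^ 3 * Real.exp (c * (D + 2)) := by
    rw [div_mul_eq_mul_div, le_div_iff₀ (by positivity)]
    calc (D + 2) ^ 3 * c ^ 3 = (c * (D + 2)) ^ 3 := by ring
      _ ≤ _ := by linarith
  calc (D + 2) ^ 3 * Real.exp (-(c * D)) ≤
      6 / c ^ 3 * Real.exp (c * (D + 2)) * Real.exp (-(c * D)) :=
        mul_le_mul_of_nonneg_right h3 (Real.exp_pos _).le
    _ = 6 / c ^ 3 * Real.exp (2 * c) := by
        rw [mul_assoc, ← Real.exp_add]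
        congr 2
        ring

omit [NeZero N] [NeZero n] in
theorem Dm_nonneg (i j k : ZMod n × ZMod n) : 0 ≤ Dm i j k :=
  (tn_nonneg _).trans (le_max_left _ _)

/-- the constant of the sums over cells -/
noncomputable def C4c (cb : ℝ) : ℝ :=
  6 / (cb / 8) ^ 3 * Real.exp (2 * (cb / 8)) * Ez (cb / 32) ^ 2 * Ez (cb / 32) ^ 2 *
    (3 + 2 * Ez (cb / 8)) ^ 2

theorem C4c_nonneg {cb : ℝ} (hcb : 0 < cb) : 0 ≤ C4c cb := by
  unfold C4c
  have := Ez_nonneg (cb / 8)
  positivity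

omit [NeZero N] in
theorem triple_sum {C3 cb s R : ℝ} (hC3 : 0 ≤ C3) (hcb : 0 < cb) (hs : 0 ≤ s) (hR : 0 ≤ R)
    (i0 : ZMod n × ZMod n) (o : ZMod n × ZMod n → ZMod n × ZMod n → ZMod n × ZMod n → ℝ)
    (ho0 : ∀ i j k, 0 ≤ o i j k) (ho1 : ∀ i j k, o i j k ≤ s * (Dm i j k + 2))
    (ho2 : ∀ i j k, o i j k ≠ 0 → tn (i - i0) - R ≤ Dm i j k) :
    ∑ i, ∑ j, ∑ k, C3 * Real.exp (-(cb / 2 * Dm i j k)) * o i j k ^ 3 ≤
      C3 * s ^ 3 * (C4c cb * (1 + R) ^ 2) := by
  set A : ZMod n × ZMod n → ℝ := fun i => Real.exp (-(cb / 4 * max (tn (i - i0) - R) 0)) with hA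
  set B : ZMod n × ZMod n → ZMod n × ZMod n → ℝ :=
    fun i j => Real.exp (-(cb / 16 * tn (i - j))) with hB
  set c4 : ℝ := 6 / (cb / 8) ^ 3 * Real.exp (2 * (cb / 8)) with hc4
  have hc40 : 0 ≤ c4 := by positivity
  have hterm : ∀ i j k, C3 * Real.exp (-(cb / 2 * Dm i j k)) * o i j k ^ 3 ≤
      C3 * s ^ 3 * c4 * (A i * (B i j * B i k)) := by
    intro i j k
    have hD := Dm_nonneg i j k
    have hpos : 0 ≤ C3 * s ^ 3 * c4 * (A i * (B i j * B i k)) := by positivity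
    by_cases h0 : o i j k = 0
    · rw [h0]
      refine le_trans (le_of_eq ?_) hpos
      ring
    have h1 := ho2 i j k h0
    have h2 : o i j k ^ 3 ≤ (s * (Dm i j k + 2)) ^ 3 :=
      pow_le_pow_left₀ (ho0 i j k) (ho1 i j k) 3
    have h3 : Real.exp (-(cb / 2 * Dm i j k)) ≤
        A i * (Real.exp (-(cb / 8 * Dm i j k)) * (B i j * B i k)) := by
      rw [hA, hB]
      simp only
      rw [← Real.exp_add, ← Real.exp_add, ← Real.exp_add]
      refine Real.exp_le_exp.2 ?_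
      have h4 : max (tn (i - i0) - R) 0 ≤ Dm i j k := max_le h1 hD
      have h5 : tn (i - j) ≤ Dm i j k := le_max_left _ _
      have h6 : tn (i - k) ≤ Dm i j k := (le_max_right _ _).trans (le_max_right _ _)
      nlinarith
    calc C3 * Real.exp (-(cb / 2 * Dm i j k)) * o i j k ^ 3
        ≤ C3 * (A i * (Real.exp (-(cb / 8 * Dm i j k)) * (B i j * B i k))) *
          (s * (Dm i j k + 2)) ^ 3 := by
          refine mul_le_mul (mul_le_mul_of_nonneg_left h3 hC3) h2 (pow_nonneg (ho0 i j k) 3) ?_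
          positivity
      _ = C3 * s ^ 3 * (A i * (B i j * B i k)) *
          ((Dm i j k + 2) ^ 3 * Real.exp (-(cb / 8 * Dm i j k))) := by ring
      _ ≤ C3 * s ^ 3 * (A i * (B i j * B i k)) * c4 :=
          mul_le_mul_of_nonneg_left (cube_exp (by positivity) hD) (by positivity)
      _ = _ := by ring
  have hBs : ∀ i, ∑ j, B i j ≤ Ez (cb / 32) ^ 2 := by
    intro i
    have := sum_exp_tn (n := n) (c := cb / 16) (by positivity) i
    have e : cb / 16 / 2 = cb / 32 := by ring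
    rw [e] at this
    exact this
  have hAs : ∑ i, A i ≤ ((3 + 2 * Ez (cb / 8)) * (1 + R)) ^ 2 := by
    have := sum_exp_flat (n := n) (c := cb / 4) (by positivity) hR i0
    have e : cb / 4 / 2 = cb / 8 := by ring
    rw [e] at this
    exact this
  have hA0 : ∀ i, 0 ≤ A i := fun i => (Real.exp_pos _).le
  have hB0 : ∀ i, 0 ≤ ∑ j, B i j := fun i => Finset.sum_nonneg fun j _ => (Real.exp_pos _).le
  have hpre : 0 ≤ C3 * s ^ 3 * c4 := by positivity
  calc ∑ i, ∑ j, ∑ k, C3 * Real.exp (-(cb / 2 * Dm i j k)) * o i j k ^ 3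
      ≤ ∑ i, ∑ j, ∑ k, C3 * s ^ 3 * c4 * (A i * (B i j * B i k)) :=
        Finset.sum_le_sum fun i _ => Finset.sum_le_sum fun j _ => Finset.sum_le_sum fun k _ =>
          hterm i j k
    _ = C3 * s ^ 3 * c4 * ∑ i, A i * ((∑ j, B i j) * ∑ k, B i k) := by
        rw [Finset.mul_sum]
        refine Finset.sum_congr rfl fun i _ => ?_
        rw [Finset.sum_mul_sum, Finset.mul_sum, Finset.mul_sum]
        refine Finset.sum_congr rfl fun j _ => ?_
        rw [Finset.mul_sum, Finset.mul_sum]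
    _ ≤ C3 * s ^ 3 * c4 * ∑ i, A i * (Ez (cb / 32) ^ 2 * Ez (cb / 32) ^ 2) := by
        refine mul_le_mul_of_nonneg_left (Finset.sum_le_sum fun i _ => ?_) hpre
        exact mul_le_mul_of_nonneg_left (mul_le_mul (hBs i) (hBs i) (hB0 i) (by positivity))
          (hA0 i)
    _ = C3 * s ^ 3 * c4 * ((∑ i, A i) * (Ez (cb / 32) ^ 2 * Ez (cb / 32) ^ 2)) := by
        rw [Finset.sum_mul]
    _ ≤ C3 * s ^ 3 * c4 * (((3 + 2 * Ez (cb / 8)) * (1 + R)) ^ 2 *
          (Ez (cb / 32) ^ 2 * Ez (cb / 32) ^ 2)) :=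
        mul_le_mul_of_nonneg_left (mul_le_mul_of_nonneg_right hAs (by positivity)) hpre
    _ = C3 * s ^ 3 * (C4c cb * (1 + R) ^ 2) := by
        unfold C4c
        rw [hc4]
        ring

/-- the constant of (E3) -/
noncomputable def CE3 (lam Cb cb : ℝ) : ℝ :=
  3 * (C3c Cb * ((3 / Real.log lam) ^ 3 * (C4c cb * (2 * lam) ^ 2)))

theorem CE3_nonneg {lam Cb cb : ℝ} (hlam : 1 < lam) (hcb : 0 < cb) : 0 ≤ CE3 lam Cb cb := by
  unfold CE3
  have h1 := C3c_nonneg Cb
  have h2 := C4c_nonneg hcb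
  have h3 := Real.log_pos hlam
  positivity

variable {M K r : ℕ} [NeZero M]

/-- **(E3)**: the third derivative of `Ub` along one logarithmic shell is `O(1/(K ρ))`. -/
theorem E3_le (hW : Wt w) (hS : Sup w) (hs : ∀ h, w (h + 1) = w h)
    (hev : ∀ h, w (-h) = w h) (hξ : 0 < ξ) (hG : Gin w (ms (N := N) (ξ : ℝ)))
    (hkap : H871.kap w (ms (N := N) (ξ : ℝ)) ≤ 1)
    (hN : N = n * ξ) (hNM : N = M * (K * ξ)) (hK : 0 < K) (hr : 4 * r ≤ K * ξ)
    {L Cb cb : ℝ} (hB : BOut w ξ L Cb cb) (hCb : 0 ≤ Cb) (hcb : 0 < cb)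
    {f : Tor N → ℝ} (hf : LipT L f) (u0 : ZMod M × ZMod M) {ρ lam : ℝ} (hρ : 10 ≤ ρ)
    (hlam : 2 ≤ lam) :
    |dddUb w (ms ξ) f (psi (K * ξ) r u0 ρ lam) (psi (K * ξ) r u0 ρ lam)
      (psi (K * ξ) r u0 ρ lam)| ≤ CE3 lam Cb cb / (K * ρ) := by
  classical
  have hξ' : (0 : ℝ) < ξ := by exact_mod_cast hξ
  have hK' : (0 : ℝ) < K := by exact_mod_cast hK
  have hK1 : (1 : ℝ) ≤ K := by exact_mod_cast hK
  have hm : ∀ x : Tor N, 0 < ms (ξ : ℝ) x := ms_pos hξ
  have hl : 0 < K * ξ := Nat.mul_pos hK hξ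
  have hr2 : 2 * r < K * ξ := by omega
  have hlam1 : 1 < lam := by linarith
  have hloglam : 0 < Real.log lam := Real.log_pos hlam1
  have hs2 : Real.sqrt 2 ≤ 3 / 2 := by
    rw [Real.sqrt_le_left (by norm_num)]
    norm_num
  have hs20 : 0 ≤ Real.sqrt 2 := Real.sqrt_nonneg 2
  set ψ : Tor N → ℝ := psi (K * ξ) r u0 ρ lam with hψ
  set Λ : ℝ := Real.sqrt 2 / ((ρ * Real.log lam) * (((K * ξ : ℕ) : ℝ) - 2 * r)) with hΛ
  have hlip : ∀ x y, |ψ x - ψ y| ≤ Λ * tn (x - y) := fun x y =>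
    psi_lip hNM hr2 u0 (by linarith) hlam1 x y
  have hr4 : (4 : ℝ) * r ≤ ((K * ξ : ℕ) : ℝ) := by exact_mod_cast hr
  have hden : ((K * ξ : ℕ) : ℝ) / 2 ≤ ((K * ξ : ℕ) : ℝ) - 2 * r := by linarith
  have hKξ : ((K * ξ : ℕ) : ℝ) = K * ξ := by push_cast; ring
  have hl' : (0 : ℝ) < ((K * ξ : ℕ) : ℝ) := by exact_mod_cast hl
  have hΛ0 : 0 ≤ Λ := by
    rw [hΛ]
    refine div_nonneg hs20 (mul_nonneg (by positivity) (by linarith))
  have hΛξ : Λ * ξ ≤ 3 / (ρ * Real.log lam * K) := by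
    rw [hΛ, div_mul_eq_mul_div, div_le_div_iff₀
      (mul_pos (by positivity) (by linarith)) (by positivity)]
    have h1 : (ρ * Real.log lam) * ((K : ℝ) * ξ / 2) ≤
        (ρ * Real.log lam) * (((K * ξ : ℕ) : ℝ) - 2 * r) :=
      mul_le_mul_of_nonneg_left (by rw [← hKξ]; exact hden) (by positivity)
    have h2 : Real.sqrt 2 * ξ * (ρ * Real.log lam * K) ≤ 3 / 2 * ξ * (ρ * Real.log lam * K) :=
      mul_le_mul_of_nonneg_right (mul_le_mul_of_nonneg_right hs2 hξ'.le) (by positivity)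
    nlinarith
  -- oscillations
  set i0 : ZMod n × ZMod n := cell ξ (node2 N (K * ξ) u0) with hi0
  set R : ℝ := (lam * ρ + Real.sqrt 2) * K + 2 with hR
  have hR0 : 0 ≤ R := by rw [hR]; positivity
  set flat : ZMod n × ZMod n → ZMod n × ZMod n → ZMod n × ZMod n → Prop :=
    fun i j k => ∀ x y : Tor N, (cell ξ x = i ∨ cell ξ x = j ∨ cell ξ x = k) →
      (cell ξ y = i ∨ cell ξ y = j ∨ cell ξ y = k) → ψ x = ψ y with hflat
  set o : ZMod n × ZMod n → ZMod n × ZMod n → ZMod n × ZMod n → ℝ :=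
    fun i j k => if flat i j k then 0 else Λ * ξ * (Dm i j k + 2) with ho
  have ho0 : ∀ i j k, 0 ≤ o i j k := by
    intro i j k
    rw [ho]
    simp only
    split_ifs
    · exact le_rfl
    · have := Dm_nonneg i j k
      positivity
  have ho1 : ∀ i j k, o i j k ≤ Λ * ξ * (Dm i j k + 2) := by
    intro i j k
    rw [ho]
    simp only
    split_ifs
    · have := Dm_nonneg i j k
      positivity
    · exact le_rfl
  have hmem : ∀ (i j k a b : ZMod n × ZMod n), (a = i ∨ a = j ∨ a = k) →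
      (b = i ∨ b = j ∨ b = k) → tn (a - b) ≤ Dm i j k := by
    intro i j k a b ha hb
    have h0 := Dm_nonneg i j k
    have d1 : tn (i - j) ≤ Dm i j k := le_max_left _ _
    have d2 : tn (j - k) ≤ Dm i j k := (le_max_left _ _).trans (le_max_right _ _)
    have d3 : tn (i - k) ≤ Dm i j k := (le_max_right _ _).trans (le_max_right _ _)
    have z : tn (0 : ZMod n × ZMod n) = 0 := by
      have : rep (0 : ZMod n × ZMod n) = (0, 0) := by
        unfold H859.rep
        simp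
      unfold H859.tn
      rw [this]
      unfold H859.nz
      simp
    rcases ha with rfl | rfl | rfl <;> rcases hb with rfl | rfl | rfl <;>
      first
        | (rw [sub_self, z]; exact h0)
        | exact d1
        | exact d2
        | exact d3
        | (rw [tn_sub_comm]; first | exact d1 | exact d2 | exact d3)
  have hoo : ∀ i j k (x y : Tor N), (cell ξ x = i ∨ cell ξ x = j ∨ cell ξ x = k) →
      (cell ξ y = i ∨ cell ξ y = j ∨ cell ξ y = k) → |ψ x - ψ y| ≤ o i j k := by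
    intro i j k x y hx hy
    rw [ho]
    simp only
    split_ifs with h
    · rw [h x y hx hy, sub_self, abs_zero]
    · refine (hlip x y).trans ?_
      have h1 := cell_le (n := n) hN hξ x y
      have h2 := hmem i j k _ _ hx hy
      have h3 : tn (x - y) ≤ ξ * (Dm i j k + 2) := by nlinarith
      calc Λ * tn (x - y) ≤ Λ * (ξ * (Dm i j k + 2)) := mul_le_mul_of_nonneg_left h3 hΛ0
        _ = _ := by ring
  have ho2 : ∀ i j k, o i j k ≠ 0 → tn (i - i0) - R ≤ Dm i j k := by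
    intro i j k hne
    have hnf : ¬ flat i j k := by
      intro h
      exact hne (if_pos h)
    have hex : ∃ x : Tor N, (cell ξ x = i ∨ cell ξ x = j ∨ cell ξ x = k) ∧
        tn (x - node2 N (K * ξ) u0) < (lam * ρ + Real.sqrt 2) * ((K * ξ : ℕ) : ℝ) := by
      by_contra hcon
      push Not at hcon
      apply hnf
      intro x y hx hy
      have e1 := psi_eq_zero (r := r) hNM hl u0 (by linarith : (0 : ℝ) < ρ) hlam1 (hcon x hx)
      have e2 := psi_eq_zero (r := r) hNM hl u0 (by linarith : (0 : ℝ) < ρ) hlam1 (hcon y hy)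
      rw [hψ, e1, e2]
    obtain ⟨x, hx, hxt⟩ := hex
    have h1 := le_cell (n := n) hN hξ x (node2 N (K * ξ) u0)
    rw [← hi0] at h1
    have h2 : tn (cell ξ x - i0) ≤ R := by
      have h3 : (ξ : ℝ) * (tn (cell ξ x - i0) - 2) ≤ ξ * ((lam * ρ + Real.sqrt 2) * K) := by
        rw [hKξ] at hxt
        calc _ ≤ _ := h1
          _ ≤ (lam * ρ + Real.sqrt 2) * ((K : ℝ) * ξ) := hxt.le
          _ = _ := by ring
      have h4 := le_of_mul_le_mul_left h3 hξ'
      rw [hR]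
      linarith
    have h5 : tn (i - cell ξ x) ≤ Dm i j k := hmem i j k i _ (Or.inl rfl) hx
    have h6 := tn_add_le (i - cell ξ x) (cell ξ x - i0)
    rw [sub_add_sub_cancel] at h6
    linarith
  have hmain := dddUb_le hW hm hs f (cell (n := n) ξ)
    (fun i j k => C3c Cb * Real.exp (-(cb / 2 * Dm i j k)))
    (fun c _ i j k a b d ha hb hd => third_block hW hS hs hev hξ hG hkap hN hB hCb hcb.le
      (LipT.sh hf c) i j k a b d ha hb hd) ψ o ho0 hoo
  have hsum := triple_sum (n := n) (C3c_nonneg Cb) hcb (mul_nonneg hΛ0 hξ'.le) hR0 i0 o ho0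
    ho1 ho2
  refine hmain.trans ((mul_le_mul_of_nonneg_left hsum (by norm_num)).trans ?_)
  -- numbers
  have hC3 := C3c_nonneg Cb
  have hC4 := C4c_nonneg hcb
  have n1 : (Λ * ξ) ^ 3 ≤ (3 / (ρ * Real.log lam * K)) ^ 3 :=
    pow_le_pow_left₀ (mul_nonneg hΛ0 hξ'.le) hΛξ 3
  have n2 : (1 + R) ^ 2 ≤ (2 * lam * ρ * K) ^ 2 := by
    refine pow_le_pow_left₀ (by linarith) ?_ 2
    rw [hR]
    have h1 : (20 : ℝ) ≤ lam * ρ := by nlinarith
    nlinarith
  have n3 : C3c Cb * (Λ * ξ) ^ 3 * (C4c cb * (1 + R) ^ 2) ≤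
      C3c Cb * (3 / (ρ * Real.log lam * K)) ^ 3 * (C4c cb * (2 * lam * ρ * K) ^ 2) := by
    refine mul_le_mul (mul_le_mul_of_nonneg_left n1 hC3) (mul_le_mul_of_nonneg_left n2 hC4)
      (by positivity) ?_
    exact mul_nonneg hC3 (by positivity)
  refine (mul_le_mul_of_nonneg_left n3 (by norm_num)).trans (le_of_eq ?_)
  unfold CE3
  have hρ0 : ρ ≠ 0 := by positivity
  have hK0 : (K : ℝ) ≠ 0 := hK'.ne'
  field_simp

end third

end Vale.Agent.P159.TM.H104
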