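import Vale.Agent.P159.TM.H104.E3
import Vale.Agent.P159.TM.H783.C5
import Vale.Agent.P159.TM.H870.Tor

/-!
P159 T1, row C4, final form: hypotheses (H1), (H3), (H4) of the shell lemma of H783 for the shells
`shl x0 r0 (exp L)` on the coarse torus `ZMod M × ZMod M`, the coarse field `A = AA (K ξ) r` and
the density `rho (wT b N) (ms ξ) A s2`, `N = K M ξ`.
-/

namespace Vale.Agent.P159.TM.H104

open Finset
open Vale.Agent.P159.TM.H859 (tn nz rep tn_nonneg tn_add_le tn_neg abs_tn_sub_le dirE Mn logCut)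
open Vale.Agent.P159.TM.H365 (node2 psi AA AA_add AA_smul)
open Vale.Agent.P159.TM.H870 (lin)
open Vale.Agent.P159.TM.H871 (Wt Ub Gin Sup)
open Vale.Agent.P159.TM.SpecC (Tor ms LipT QU BOut wT)
open Vale.Agent.P159.TM.H783 (shl rad rad_pos rad_ge)

section

variable {N M K ξ r : ℕ} [NeZero N] [NeZero M]

theorem AA_add' (G G' : Tor M → ℝ) :
    AA (N := N) (K * ξ) r (G + G') = AA (K * ξ) r G + AA (K * ξ) r G' := by
  funext x
  exact AA_add G G' x

theorem AA_smul' (c : ℝ) (G : Tor M → ℝ) :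
    AA (N := N) (K * ξ) r (c • G) = c • AA (K * ξ) r G := by
  funext x
  exact AA_smul c G x

/-- Lipschitz bound of the shift -/
theorem shift_lip (hξ : 0 < ξ) (hK : 0 < K) (hNM : N = M * (K * ξ)) (hr : 4 * r ≤ K * ξ)
    (x0 : Tor M) {r0 Lg T : ℝ} (hr0 : 0 < r0) (hLg : 0 < Lg) (hT : 0 ≤ T) {I : ℕ}
    {t : Fin I → ℝ} (ht : ∀ i, |t i| ≤ T) :
    LipT (6 * T / (r0 * Lg * K) / ξ)
      (AA (N := N) (K * ξ) r (∑ i, t i • shl x0 r0 (Real.exp Lg) I i)) := by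
  have hξ' : (0 : ℝ) < ξ := by exact_mod_cast hξ
  have hK' : (0 : ℝ) < K := by exact_mod_cast hK
  have hr2 : 2 * r < K * ξ := by
    have := Nat.mul_pos hK hξ
    omega
  have hs2 : Real.sqrt 2 ≤ 3 / 2 := by
    rw [Real.sqrt_le_left (by norm_num)]
    norm_num
  have hnn : ∀ e : Tor M, tn e ≤ 1 → ∀ u : Tor M,
      |(∑ i, t i • shl x0 r0 (Real.exp Lg) I i) (u + e) -
        (∑ i, t i • shl x0 r0 (Real.exp Lg) I i) u| ≤ 2 * T / (r0 * Lg) := by
    intro e he u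
    have h1 := H783.c5_lip x0 hLg hr0 hT ht (u + e) u
    rw [add_sub_cancel_left] at h1
    simp only [Finset.sum_apply, Pi.smul_apply, smul_eq_mul]
    refine h1.trans ?_
    have : 0 ≤ 2 * T / (r0 * Lg) := by positivity
    nlinarith
  intro x y
  refine (H365.AA_lip_tn hNM hr2 (M := 2 * T / (r0 * Lg)) (by positivity) _
    (hnn (1, 0) H870.tn_e1) (hnn (0, 1) H870.tn_e2) x y).trans ?_
  refine mul_le_mul_of_nonneg_right ?_ (tn_nonneg _)
  have hr4 : (4 : ℝ) * r ≤ ((K * ξ : ℕ) : ℝ) := by exact_mod_cast hr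
  have hKξ : ((K * ξ : ℕ) : ℝ) = K * ξ := by push_cast; ring
  have hden : (K : ℝ) * ξ / 2 ≤ ((K * ξ : ℕ) : ℝ) - 2 * r := by
    rw [hKξ] at hr4 ⊢
    linarith
  calc Real.sqrt 2 * (2 * T / (r0 * Lg)) / (((K * ξ : ℕ) : ℝ) - 2 * r)
      ≤ 3 / 2 * (2 * T / (r0 * Lg)) / ((K : ℝ) * ξ / 2) := by
        refine div_le_div₀ (by positivity) ?_ (by positivity) hden
        exact mul_le_mul_of_nonneg_right hs2 (by positivity)
    _ = 6 * T / (r0 * Lg * K) / ξ := by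
        field_simp
        ring

omit [NeZero N] in
theorem LipT_add {L1 L2 : ℝ} {f g : Tor N → ℝ} (hf : LipT L1 f) (hg : LipT L2 g) :
    LipT (L1 + L2) (f + g) := by
  intro x y
  simp only [Pi.add_apply]
  have h1 := hf x y
  have h2 := hg x y
  have e : f x + g x - (f y + g y) = (f x - f y) + (g x - g y) := by ring
  rw [e, add_mul]
  exact (abs_add_le _ _).trans (add_le_add h1 h2)

omit [NeZero N] in
theorem LipT_neg {L : ℝ} {f : Tor N → ℝ} (hf : LipT L f) : LipT L (-f) := by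
  intro x y
  simp only [Pi.neg_apply]
  have e : -f x - -f y = -(f x - f y) := by ring
  rw [e, abs_neg]
  exact hf x y

omit [NeZero N] in
theorem LipT_mono {L L' : ℝ} (h : L ≤ L') {f : Tor N → ℝ} (hf : LipT L f) : LipT L' f :=
  fun x y => (hf x y).trans (mul_le_mul_of_nonneg_right h (tn_nonneg _))

/-- the shifted coarse field stays in the Lipschitz class -/
theorem shift_mem (hξ : 0 < ξ) (hK : 0 < K) (hNM : N = M * (K * ξ)) (hr : 4 * r ≤ K * ξ)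
    (x0 : Tor M) {r0 Lg T L L1 : ℝ} (hr0 : 0 < r0) (hLg : 0 < Lg) (hT : 0 ≤ T)
    (hL : L + 6 * T / (r0 * Lg * K) ≤ L1) {I : ℕ} {t : Fin I → ℝ} (ht : ∀ i, |t i| ≤ T)
    {G : Tor M → ℝ} (hG : LipT (L / ξ) (AA (N := N) (K * ξ) r G)) :
    LipT (L1 / ξ) (AA (N := N) (K * ξ) r (G + ∑ i, t i • shl x0 r0 (Real.exp Lg) I i)) := by
  have hξ' : (0 : ℝ) < ξ := by exact_mod_cast hξ
  rw [AA_add']
  refine LipT_mono ?_ (LipT_add hG (shift_lip hξ hK hNM hr x0 hr0 hLg hT ht))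
  rw [← add_div]
  exact div_le_div_of_nonneg_right hL hξ'.le

/-- **(H1)** of the shell lemma -/
theorem shift_mem_sub (hξ : 0 < ξ) (hK : 0 < K) (hNM : N = M * (K * ξ)) (hr : 4 * r ≤ K * ξ)
    (x0 : Tor M) {r0 Lg T L L1 : ℝ} (hr0 : 0 < r0) (hLg : 0 < Lg) (hT : 0 ≤ T)
    (hL : L + 6 * T / (r0 * Lg * K) ≤ L1) {I : ℕ} {t : Fin I → ℝ} (ht : ∀ i, |t i| ≤ T)
    {G : Tor M → ℝ} (hG : LipT (L / ξ) (AA (N := N) (K * ξ) r G)) :
    LipT (L1 / ξ) (AA (N := N) (K * ξ) r (G - ∑ i, t i • shl x0 r0 (Real.exp Lg) I i)) := by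
  have h := shift_mem (N := N) hξ hK hNM hr x0 hr0 hLg hT hL (t := fun i => -t i)
    (fun i => by rw [abs_neg]; exact ht i) hG
  have e : ∑ i, -t i • shl x0 r0 (Real.exp Lg) I i =
      -∑ i, t i • shl x0 r0 (Real.exp Lg) I i := by
    rw [← Finset.sum_neg_distrib]
    exact Finset.sum_congr rfl fun i _ => neg_smul _ _
  rw [e, ← sub_eq_add_neg] at h
  exact h

theorem qf_eq {C ι : Type*} [Fintype C] [Fintype ι] (s2 : ℝ) (Ψ : ι → C → ℝ) (t : ι → ℝ) :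
    qf s2 Ψ t = H783.qf s2 Ψ t := rfl

/-- **(H3)** of the shell lemma for the logarithmic shells -/
theorem final_H3 {b : ℝ} (hb : 0 ≤ b) (hξ : 0 < ξ) (hK : 0 < K) (hN : N = K * M * ξ)
    (hr : 4 * r ≤ K * ξ) {L1 Cb cb : ℝ} (hB : BOut (wT b N) ξ (L1 / ξ) Cb cb) (hCb : 0 ≤ Cb)
    (hcb : 0 ≤ cb) (s2 : ℝ) (x0 : Tor M) {r0 Lg T L : ℝ} (hr0 : 10 ≤ r0) (hLg : 0 < Lg)
    (hT : 0 ≤ T) (hL : L + 6 * T / (r0 * Lg * K) ≤ L1) {I : ℕ} {t : Fin I → ℝ}
    (ht : ∀ i, |t i| ≤ T) {G : Tor M → ℝ} (hG : LipT (L / ξ) (AA (N := N) (K * ξ) r G)) :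
    |Real.log (rho (wT b N) (ms ξ) (AA (K * ξ) r) s2
        (G + ∑ i, t i • shl x0 r0 (Real.exp Lg) I i)) -
      Real.log (rho (wT b N) (ms ξ) (AA (K * ξ) r) s2 G) -
      ∑ i, (Real.log (rho (wT b N) (ms ξ) (AA (K * ξ) r) s2
        (G + t i • shl x0 r0 (Real.exp Lg) I i)) -
        Real.log (rho (wT b N) (ms ξ) (AA (K * ξ) r) s2 G)) +
      H783.qf s2 (shl x0 r0 (Real.exp Lg) I) t| ≤
      (I : ℝ) * ((I : ℝ) * (T ^ 2 * (((K * M : ℕ) : ℝ) ^ 4 *
        (Cb * Real.exp (-(cb * ((K : ℝ) - 2))))))) := by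
  have hξ' : (0 : ℝ) < ξ := by exact_mod_cast hξ
  have hM : 0 < M := Nat.pos_of_ne_zero (NeZero.ne M)
  have : NeZero (K * M) := ⟨(Nat.mul_pos hK hM).ne'⟩
  have hNM : N = M * (K * ξ) := by rw [hN]; ring
  have hl : 0 < K * ξ := Nat.mul_pos hK hξ
  have hm : ∀ x : Tor N, 0 < ms (ξ : ℝ) x := ms_pos hξ
  have hW := H870.wt_T (N := N) hb
  have hS := H870.sup_T (N := N) hb
  have hs := H870.shift_T (b := b) (N := N)
  have hlam : 1 < Real.exp Lg := Real.one_lt_exp_iff.2 hLg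
  have hE : (((K * ξ : ℕ) : ℝ)) / ξ - 2 = (K : ℝ) - 2 := by
    push_cast
    rw [mul_div_cancel_right₀ _ hξ'.ne']
  have h := rho_H3 hW hm hs (A := AA (N := N) (K * ξ) r) (fun G G' => AA_add' G G')
    (fun c G => AA_smul' c G) s2 G (shl x0 r0 (Real.exp Lg) I) t (T := T)
    (e0 := ((K * M : ℕ) : ℝ) ^ 4 * (Cb * Real.exp (-(cb * ((K : ℝ) - 2))))) ht
    (by positivity) (fun s hs' j k hjk => by
      have hmem := shift_mem (N := N) hξ hK hNM hr x0 (by linarith : 0 < r0) hLg hT hL hs' hG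
      have key : ∀ j k : Fin I, j < k →
          |ddUb (wT b N) (ms ξ) (AA (K * ξ) r (G + ∑ i, s i • shl x0 r0 (Real.exp Lg) I i))
            (AA (K * ξ) r (shl x0 r0 (Real.exp Lg) I j))
            (AA (K * ξ) r (shl x0 r0 (Real.exp Lg) I k))| ≤
          ((K * M : ℕ) : ℝ) ^ 4 * (Cb * Real.exp (-(cb * ((K : ℝ) - 2)))) := by
        intro j k hlt
        have h1 := E0_lt (n := K * M) hW hS hs hξ hN hNM hl (r := r) hB hCb hcb hmem x0
          (ρ₁ := rad r0 (Real.exp Lg) j) (ρ₂ := rad r0 (Real.exp Lg) k)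
          (lam := Real.exp Lg)
          (hr0.trans (rad_ge (by linarith) hlam _)) hlam (by
            have h2 : rad r0 (Real.exp Lg) ((j : ℕ) + 1) =
                2 * Real.exp Lg * rad r0 (Real.exp Lg) j := by
              unfold rad
              rw [pow_succ]
              ring
            rw [← h2]
            exact H783.rad_mono (by linarith) hlam hlt)
        rw [hE] at h1
        exact h1
      rcases lt_or_gt_of_ne hjk with hlt | hgt
      · exact key j k hlt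
      · rw [ddUb_comm hW hm hs]
        exact key k j hgt)
  rw [Fintype.card_fin, qf_eq] at h
  exact h

/-- the slope of the potential along one shell -/
theorem slope_le {b : ℝ} (hξ : 0 < ξ) (hK : 0 < K) (hNM : N = M * (K * ξ))
    (hr : 4 * r ≤ K * ξ) {y a : ℝ} (hy : 0 ≤ y) (ha : 0 ≤ a) (hQ : QU (wT b N) ξ y a)
    (Ψ : Tor M → ℝ) :
    ddU (wT b N) (ms ξ) 0 (AA (K * ξ) r Ψ) (AA (K * ξ) r Ψ) ≤
      y * (K : ℝ) ^ 2 * ∑ u, Ψ u ^ 2 +
        a * (((K * ξ : ℕ) : ℝ) / (((K * ξ : ℕ) : ℝ) - 2 * r) * dirE Ψ) := by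
  have hξ' : (0 : ℝ) < ξ := by exact_mod_cast hξ
  have hr2 : 2 * r < K * ξ := by
    have := Nat.mul_pos hK hξ
    omega
  refine (hQ _).trans (add_le_add ?_ (mul_le_mul_of_nonneg_left
    (H365.dirE_AA hNM hr2 Ψ) ha))
  have h1 := H365.sq_le (N := N) (r := r) hNM hr2 Ψ
  calc y / (ξ : ℝ) ^ 2 * ∑ x, AA (K * ξ) r Ψ x ^ 2
      ≤ y / (ξ : ℝ) ^ 2 * (((K * ξ : ℕ) : ℝ) ^ 2 * ∑ u, Ψ u ^ 2) :=
        mul_le_mul_of_nonneg_left h1 (by positivity)
    _ = y * (K : ℝ) ^ 2 * ∑ u, Ψ u ^ 2 := by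
        push_cast
        field_simp

/-- **(H4)** of the shell lemma for the logarithmic shells -/
theorem final_H4 {b : ℝ} (hb : 0 ≤ b) (hξ : 0 < ξ) (hK : 0 < K) (hN : N = K * M * ξ)
    (hr : 4 * r ≤ K * ξ) {y a : ℝ} (hy : 0 ≤ y) (ha : 0 ≤ a) (hQ : QU (wT b N) ξ y a)
    (hyV : y * ((K : ℝ) * M) ^ 2 ≤ 1)
    {L1 Cb cb : ℝ} (hB : BOut (wT b N) ξ (L1 / ξ) Cb cb) (hCb : 0 ≤ Cb)
    (hcb : 0 < cb) {s2 : ℝ} (hs2 : 0 < s2) (x0 : Tor M) {r0 Lg T L qb : ℝ} (hr0 : 10 ≤ r0)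
    (hLg : 1 ≤ Lg) (hT : 0 ≤ T) (hL : L + 6 * T / (r0 * Lg * K) ≤ L1) {I : ℕ} (i : Fin I)
    (hq : (∑ u, shl x0 r0 (Real.exp Lg) I i u ^ 2) / s2 +
      y * (K : ℝ) ^ 2 * (∑ u, shl x0 r0 (Real.exp Lg) I i u ^ 2) +
      a * (((K * ξ : ℕ) : ℝ) / (((K * ξ : ℕ) : ℝ) - 2 * r) *
        dirE (shl x0 r0 (Real.exp Lg) I i)) ≤ qb)
    {G : Tor M → ℝ} (hG : LipT (L / ξ) (AA (N := N) (K * ξ) r G)) :
    ∃ bb rr : ℝ, 0 ≤ rr ∧ rr ≤ qb ∧ ∀ t : ℝ, |t| ≤ T →
      |Real.log (rho (wT b N) (ms ξ) (AA (K * ξ) r) s2 (G + t • shl x0 r0 (Real.exp Lg) I i)) -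
        Real.log (rho (wT b N) (ms ξ) (AA (K * ξ) r) s2 G) + bb * t + rr * t ^ 2 / 2| ≤
      CE3 (Real.exp Lg) Cb cb / (K * r0) * T ^ 3 := by
  classical
  have hξ' : (0 : ℝ) < ξ := by exact_mod_cast hξ
  have hK' : (0 : ℝ) < K := by exact_mod_cast hK
  have hM : 0 < M := Nat.pos_of_ne_zero (NeZero.ne M)
  have : NeZero (K * M) := ⟨(Nat.mul_pos hK hM).ne'⟩
  have hNM : N = M * (K * ξ) := by rw [hN]; ring
  have hm : ∀ x : Tor N, 0 < ms (ξ : ℝ) x := ms_pos hξ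
  have hW := H870.wt_T (N := N) hb
  have hS := H870.sup_T (N := N) hb
  have hs := H870.shift_T (b := b) (N := N)
  have hev := H870.even_T (N := N) hb
  have hGin := H870.gin_T (N := N) hb hm
  have hLg0 : 0 < Lg := by linarith
  have hlam : 1 < Real.exp Lg := Real.one_lt_exp_iff.2 hLg0
  have hlam2 : 2 ≤ Real.exp Lg := by
    have := Real.add_one_le_exp Lg
    linarith
  have hkap : H871.kap (wT b N) (ms (N := N) (ξ : ℝ)) ≤ 1 := by
    refine (H870.kap_le hQ).trans (le_trans (le_of_eq ?_) hyV)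
    rw [hN]
    push_cast
    field_simp
  have hrad := rad_ge (r0 := r0) (by linarith) hlam (i : ℕ)
  have hC0 := CE3_nonneg (lam := Real.exp Lg) (Cb := Cb) hlam hcb
  refine rho_H4 hW hm hs hS hGin (A := AA (N := N) (K * ξ) r) (fun G G' => AA_add' G G')
    (fun c G => AA_smul' c G) hs2 G (shl x0 r0 (Real.exp Lg) I i) (T := T) ?_ ?_
  · have h1 := slope_le (b := b) hξ hK hNM hr hy ha hQ (shl x0 r0 (Real.exp Lg) I i)
    linarith
  · intro s hs'
    have hmem : LipT (L1 / ξ) (AA (N := N) (K * ξ) r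
        (G + s • shl x0 r0 (Real.exp Lg) I i)) := by
      have h1 := shift_mem (N := N) hξ hK hNM hr x0 (by linarith : 0 < r0) hLg0 hT hL
        (t := fun j => if j = i then s else 0) (fun j => by
          split_ifs
          · exact hs'
          · rw [abs_zero]; exact hT) hG
      have e : ∑ j, (if j = i then s else 0) • shl x0 r0 (Real.exp Lg) I j =
          s • shl x0 r0 (Real.exp Lg) I i := by
        rw [Finset.sum_eq_single i]
        · rw [if_pos rfl]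
        · intro j _ hj
          rw [if_neg hj, zero_smul]
        · intro h
          exact absurd (Finset.mem_univ i) h
      rw [e] at h1
      exact h1
    have h2 := E3_le (n := K * M) hW hS hs hev hξ hGin hkap hN hNM hK hr hB hCb hcb hmem x0
      (ρ := rad r0 (Real.exp Lg) i) (lam := Real.exp Lg) (hr0.trans hrad) hlam2
    refine h2.trans ?_
    refine div_le_div_of_nonneg_left hC0 (by positivity) ?_
    exact mul_le_mul_of_nonneg_left hrad hK'.le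

end

end Vale.Agent.P159.TM.H104
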