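import Mathlib

/-!
P159 T1, row C4: one-variable lemmas (Taylor with bounds, second differences, differentiation
under `∫ c in 0..1`).
-/

namespace Vale.Agent.P159.TM.H104

open Set MeasureTheory Filter Topology

/-- mean value inequality between `0` and `t` -/
theorem mvt_bd {φ φ' : ℝ → ℝ} {t M : ℝ}
    (h1 : ∀ s ∈ uIcc 0 t, HasDerivAt φ (φ' s) s) (hM : ∀ s ∈ uIcc 0 t, |φ' s| ≤ M)
    {s : ℝ} (hs : s ∈ uIcc 0 t) : |φ s - φ 0| ≤ M * |t| := by
  have h := (convex_uIcc (0 : ℝ) t).norm_image_sub_le_of_norm_hasDerivWithin_le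
    (f := φ) (f' := φ') (C := M) (fun r hr => (h1 r hr).hasDerivWithinAt)
    (fun r hr => by rw [Real.norm_eq_abs]; exact hM r hr) left_mem_uIcc hs
  rw [Real.norm_eq_abs, Real.norm_eq_abs, sub_zero] at h
  have hM0 : 0 ≤ M := (abs_nonneg _).trans (hM 0 left_mem_uIcc)
  refine h.trans (mul_le_mul_of_nonneg_left ?_ hM0)
  rcases le_total 0 t with ht | ht
  · rw [uIcc_of_le ht] at hs
    rw [abs_of_nonneg hs.1, abs_of_nonneg ht]
    exact hs.2
  · rw [uIcc_of_ge ht] at hs
    rw [abs_of_nonpos hs.2, abs_of_nonpos ht]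
    linarith [hs.1]

/-- Taylor to order two, bounded third derivative -/
theorem taylor3 {φ φ' φ'' φ3 : ℝ → ℝ} {t M : ℝ}
    (h1 : ∀ s ∈ uIcc 0 t, HasDerivAt φ (φ' s) s) (h2 : ∀ s ∈ uIcc 0 t, HasDerivAt φ' (φ'' s) s)
    (h3 : ∀ s ∈ uIcc 0 t, HasDerivAt φ'' (φ3 s) s) (hM : ∀ s ∈ uIcc 0 t, |φ3 s| ≤ M) :
    |φ t - φ 0 - t * φ' 0 - t ^ 2 / 2 * φ'' 0| ≤ M * |t| ^ 3 := by
  have a1 : ∀ s ∈ uIcc 0 t, |φ'' s - φ'' 0| ≤ M * |t| := fun s hs => mvt_bd h3 hM hs
  have a2 : ∀ s ∈ uIcc 0 t, |φ' s - φ' 0 - s * φ'' 0| ≤ M * |t| * |t| := by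
    intro s hs
    have := mvt_bd (φ := fun s => φ' s - s * φ'' 0) (φ' := fun s => φ'' s - φ'' 0)
      (t := t) (M := M * |t|)
      (fun r hr => by
        have := (h2 r hr).sub ((hasDerivAt_id r).mul_const (φ'' 0))
        exact this.congr_deriv (by ring)) a1 hs
    have e : φ' s - s * φ'' 0 - (φ' 0 - 0 * φ'' 0) = φ' s - φ' 0 - s * φ'' 0 := by ring
    rw [e] at this
    exact this
  have a3 := mvt_bd (φ := fun s => φ s - s * φ' 0 - s ^ 2 / 2 * φ'' 0)
    (φ' := fun s => φ' s - φ' 0 - s * φ'' 0) (t := t) (M := M * |t| * |t|)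
    (fun r hr => by
      have h4 := ((h1 r hr).sub ((hasDerivAt_id r).mul_const (φ' 0))).sub
        ((((hasDerivAt_id r).pow 2).div_const 2).mul_const (φ'' 0))
      refine h4.congr_deriv ?_
      simp only [id_eq, Nat.cast_ofNat]
      ring) a2 right_mem_uIcc
  have e : φ t - t * φ' 0 - t ^ 2 / 2 * φ'' 0 - (φ 0 - 0 * φ' 0 - 0 ^ 2 / 2 * φ'' 0) =
      φ t - φ 0 - t * φ' 0 - t ^ 2 / 2 * φ'' 0 := by ring
  rw [e] at a3
  refine a3.trans (le_of_eq ?_)
  ring

/-- Taylor upper bound from `φ'' ≤ q` -/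
theorem taylor_up {φ φ' φ'' : ℝ → ℝ} {q : ℝ}
    (h1 : ∀ s, HasDerivAt φ (φ' s) s) (h2 : ∀ s, HasDerivAt φ' (φ'' s) s)
    (hq : ∀ s, φ'' s ≤ q) {t : ℝ} (ht : 0 ≤ t) : φ t ≤ φ 0 + t * φ' 0 + t ^ 2 / 2 * q := by
  have a1 : ∀ s, 0 ≤ s → φ' s ≤ φ' 0 + s * q := by
    intro s hs
    have hmono : AntitoneOn (fun s => φ' s - s * q) (Icc 0 s) := by
      refine antitoneOn_of_hasDerivWithinAt_nonpos (f' := fun s => φ'' s - q) (convex_Icc 0 s) ?_ ?_ ?_
      · exact fun r _ => ((h2 r).sub ((hasDerivAt_id r).mul_const q)).continuousAt.continuousWithinAt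
      · intro r _
        have := (h2 r).sub ((hasDerivAt_id r).mul_const q)
        exact (this.congr_deriv (by ring)).hasDerivWithinAt
      · intro r _
        linarith [hq r]
    have := hmono (left_mem_Icc.2 hs) (right_mem_Icc.2 hs) hs
    simp only [zero_mul, sub_zero] at this
    linarith
  have hmono : AntitoneOn (fun s => φ s - s * φ' 0 - s ^ 2 / 2 * q) (Icc 0 t) := by
    refine antitoneOn_of_hasDerivWithinAt_nonpos (f' := fun s => φ' s - φ' 0 - s * q)
      (convex_Icc 0 t) ?_ ?_ ?_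
    · intro r _
      exact (((h1 r).sub ((hasDerivAt_id r).mul_const (φ' 0))).sub
        ((((hasDerivAt_id r).pow 2).div_const 2).mul_const q)).continuousAt.continuousWithinAt
    · intro r _
      have h4 := ((h1 r).sub ((hasDerivAt_id r).mul_const (φ' 0))).sub
        ((((hasDerivAt_id r).pow 2).div_const 2).mul_const q)
      refine (h4.congr_deriv ?_).hasDerivWithinAt
      simp only [id_eq, Nat.cast_ofNat]
      ring
    · intro r hr
      rw [interior_Icc] at hr
      linarith [a1 r hr.1.le]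
  have := hmono (left_mem_Icc.2 ht) (right_mem_Icc.2 ht) ht
  simp only [zero_mul, sub_zero] at this
  have e : (0 : ℝ) ^ 2 / 2 * q = 0 := by ring
  rw [e, sub_zero] at this
  linarith

/-- a bound of the symmetric second difference bounds the second derivative -/
theorem second_le {φ φ' φ'' : ℝ → ℝ} {q : ℝ}
    (h1 : ∀ s, HasDerivAt φ (φ' s) s) (h2 : ∀ s, HasDerivAt φ' (φ'' s) s)
    (hc : Continuous φ'') (hq : ∀ s, φ s + φ (-s) - 2 * φ 0 ≤ q * s ^ 2) : φ'' 0 ≤ q := by
  by_contra hcon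
  push Not at hcon
  -- near `0` the second derivative exceeds `q`
  have hev : ∀ᶠ s in 𝓝 (0 : ℝ), q < φ'' s :=
    hc.continuousAt.eventually (lt_mem_nhds hcon)
  obtain ⟨δ, hδ, hball⟩ := Metric.eventually_nhds_iff.1 hev
  have hb : ∀ s, |s| < δ → q < φ'' s := fun s hs => hball (by rwa [Real.dist_eq, sub_zero])
  -- the symmetrised function
  have g1 : ∀ s, HasDerivAt (fun s => φ s + φ (-s) - 2 * φ 0 - q * s ^ 2)
      (φ' s - φ' (-s) - q * (2 * s)) s := by
    intro s
    have a1 : HasDerivAt (fun s => φ (-s)) (-φ' (-s)) s := by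
      have := HasDerivAt.comp s (h₂ := φ) (h := fun s => -s) (h1 (-s)) (hasDerivAt_neg s)
      exact this.congr_deriv (by ring)
    have a2 : HasDerivAt (fun s : ℝ => q * s ^ 2) (q * (2 * s)) s := by
      have := ((hasDerivAt_id s).pow 2).const_mul q
      simpa using this
    have := (((h1 s).add a1).sub_const (2 * φ 0)).sub a2
    exact this.congr_deriv (by ring)
  have g2 : ∀ s, HasDerivAt (fun s => φ' s - φ' (-s) - q * (2 * s))
      (φ'' s + φ'' (-s) - q * 2) s := by
    intro s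
    have a1 : HasDerivAt (fun s => φ' (-s)) (-φ'' (-s)) s := by
      have := HasDerivAt.comp s (h₂ := φ') (h := fun s => -s) (h2 (-s)) (hasDerivAt_neg s)
      exact this.congr_deriv (by ring)
    have a2 : HasDerivAt (fun s : ℝ => q * (2 * s)) (q * 2) s := by
      have := ((hasDerivAt_id s).const_mul 2).const_mul q
      simpa using this
    have := ((h2 s).sub a1).sub a2
    exact this.congr_deriv (by ring)
  set δ' := δ / 2 with hδ'
  have hδ'0 : 0 < δ' := by positivity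
  have m1 : StrictMonoOn (fun s => φ' s - φ' (-s) - q * (2 * s)) (Icc 0 δ') := by
    refine strictMonoOn_of_hasDerivWithinAt_pos (convex_Icc 0 δ')
      (f' := fun s => φ'' s + φ'' (-s) - q * 2) ?_ ?_ ?_
    · exact fun r _ => (g2 r).continuousAt.continuousWithinAt
    · exact fun r _ => (g2 r).hasDerivWithinAt
    · intro r hr
      rw [interior_Icc] at hr
      have b1 := hb r (by rw [abs_of_pos hr.1]; linarith [hr.2])
      have b2 := hb (-r) (by rw [abs_neg, abs_of_pos hr.1]; linarith [hr.2])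
      linarith
  have m1' : ∀ r ∈ Ioo 0 δ', 0 < φ' r - φ' (-r) - q * (2 * r) := by
    intro r hr
    have := m1 (left_mem_Icc.2 hδ'0.le) ⟨hr.1.le, hr.2.le⟩ hr.1
    simpa using this
  have m2 : StrictMonoOn (fun s => φ s + φ (-s) - 2 * φ 0 - q * s ^ 2) (Icc 0 δ') := by
    refine strictMonoOn_of_hasDerivWithinAt_pos (convex_Icc 0 δ')
      (f' := fun s => φ' s - φ' (-s) - q * (2 * s)) ?_ ?_ ?_
    · exact fun r _ => (g1 r).continuousAt.continuousWithinAt
    · exact fun r _ => (g1 r).hasDerivWithinAt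
    · intro r hr
      rw [interior_Icc] at hr
      exact m1' r hr
  have := m2 (left_mem_Icc.2 hδ'0.le) (right_mem_Icc.2 hδ'0.le) hδ'0
  simp only [neg_zero] at this
  have h5 := hq δ'
  have e : φ 0 + φ 0 - 2 * φ 0 - q * 0 ^ 2 = 0 := by ring
  rw [e] at this
  linarith

theorem le_second {φ φ' φ'' : ℝ → ℝ} {q : ℝ}
    (h1 : ∀ s, HasDerivAt φ (φ' s) s) (h2 : ∀ s, HasDerivAt φ' (φ'' s) s)
    (hc : Continuous φ'') (hq : ∀ s, q * s ^ 2 ≤ φ s + φ (-s) - 2 * φ 0) : q ≤ φ'' 0 := by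
  have := second_le (φ := fun s => -φ s) (φ' := fun s => -φ' s) (φ'' := fun s => -φ'' s)
    (q := -q) (fun s => (h1 s).neg) (fun s => (h2 s).neg) hc.neg (fun s => by
      have := hq s
      linarith)
  linarith

/-- differentiation under `∫ c in 0..1` for jointly continuous data -/
theorem hasDerivAt_int {F F' : ℝ → ℝ → ℝ} (hF : Continuous (Function.uncurry F))
    (hF' : Continuous (Function.uncurry F')) (hd : ∀ s c, HasDerivAt (fun s => F s c) (F' s c) s)
    (s : ℝ) : HasDerivAt (fun s => ∫ c in (0 : ℝ)..1, F s c) (∫ c in (0 : ℝ)..1, F' s c) s := by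
  obtain ⟨B, hB⟩ := ((isCompact_Icc (a := s - 1) (b := s + 1)).prod
    (isCompact_Icc (a := (0 : ℝ)) (b := 1))).exists_bound_of_continuousOn hF'.continuousOn
  refine (intervalIntegral.hasDerivAt_integral_of_dominated_loc_of_deriv_le
    (F := F) (F' := F') (s := Icc (s - 1) (s + 1)) (bound := fun _ => B)
    (Icc_mem_nhds (by linarith) (by linarith)) ?_ ?_ ?_ ?_ ?_ ?_).2
  · refine Filter.Eventually.of_forall fun r => ?_
    exact (hF.comp (by fun_prop : Continuous fun c : ℝ => (r, c))).aestronglyMeasurable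
  · exact (hF.comp (by fun_prop : Continuous fun c : ℝ => (s, c))).intervalIntegrable _ _
  · exact (hF'.comp (by fun_prop : Continuous fun c : ℝ => (s, c))).aestronglyMeasurable
  · refine Filter.Eventually.of_forall fun c hc r hr => ?_
    rw [uIoc_of_le zero_le_one] at hc
    exact hB (r, c) ⟨hr, ⟨hc.1.le, hc.2⟩⟩
  · exact continuous_const.intervalIntegrable _ _
  · exact Filter.Eventually.of_forall fun c _ r _ => hd r c

end Vale.Agent.P159.TM.H104
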