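import Vale.Agent.P159.TM.H104.Neutral

/-!
P159 T1, row C4, level of the density `ρ(G) = exp(- ∑ G²/(2 s2) - Ub(A G))` on the coarse fields:
hypotheses (H3), (H4) of the shell lemma of H783 from the bounds of the cross terms and of the
third derivative of `Ub`.
-/

namespace Vale.Agent.P159.TM.H104

open Real Finset MeasureTheory
open Vale.Agent.P159.TM.H870 (gr Zr lin)
open Vale.Agent.P159.TM.H871 (Wt Ub Gin Sup)

variable {V : Type*} [Fintype V] {W : (V → ℤ) → ℝ} {m : V → ℝ}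

/-- density of the coarse field -/
noncomputable def rho {C : Type*} [Fintype C] (W : (V → ℤ) → ℝ) (m : V → ℝ)
    (A : (C → ℝ) → V → ℝ) (s2 : ℝ) (G : C → ℝ) : ℝ :=
  Real.exp (-(∑ u, G u ^ 2) / (2 * s2) - Ub W m (A G))

theorem log_rho {C : Type*} [Fintype C] (A : (C → ℝ) → V → ℝ) (s2 : ℝ) (G : C → ℝ) :
    Real.log (rho W m A s2 G) = -(∑ u, G u ^ 2) / (2 * s2) - Ub W m (A G) := Real.log_exp _

/-- the quadratic cross terms (783's `qf`) -/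
noncomputable def qf {C ι : Type*} [Fintype C] [Fintype ι] (s2 : ℝ) (Ψ : ι → C → ℝ)
    (t : ι → ℝ) : ℝ :=
  1 / (2 * s2) * (∑ u, (∑ i, t i * Ψ i u) ^ 2 - ∑ i, t i ^ 2 * ∑ u, Ψ i u ^ 2)

theorem sq_split {C ι : Type*} [Fintype C] [Fintype ι] (G : C → ℝ) (Ψ : ι → C → ℝ)
    (t : ι → ℝ) :
    ∑ u, (G + ∑ i, t i • Ψ i) u ^ 2 - ∑ u, G u ^ 2 -
      ∑ i, (∑ u, (G + t i • Ψ i) u ^ 2 - ∑ u, G u ^ 2) =
    ∑ u, (∑ i, t i * Ψ i u) ^ 2 - ∑ i, t i ^ 2 * ∑ u, Ψ i u ^ 2 := by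
  have e1 : ∀ i, ∑ u, (G + t i • Ψ i) u ^ 2 - ∑ u, G u ^ 2 =
      ∑ u, (2 * G u * (t i * Ψ i u) + (t i * Ψ i u) ^ 2) := by
    intro i
    rw [← Finset.sum_sub_distrib]
    refine Finset.sum_congr rfl fun u _ => ?_
    simp only [Pi.add_apply, Pi.smul_apply, smul_eq_mul]
    ring
  simp only [e1]
  rw [Finset.sum_comm (s := (Finset.univ : Finset ι))]
  have e2 : ∑ i, t i ^ 2 * ∑ u, Ψ i u ^ 2 = ∑ u, ∑ i, (t i * Ψ i u) ^ 2 := by
    simp only [Finset.mul_sum]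
    rw [Finset.sum_comm]
    exact Finset.sum_congr rfl fun u _ => Finset.sum_congr rfl fun i _ => by ring
  rw [e2, ← Finset.sum_sub_distrib, ← Finset.sum_sub_distrib, ← Finset.sum_sub_distrib]
  refine Finset.sum_congr rfl fun u _ => ?_
  have e3 : (G + ∑ i, t i • Ψ i) u = G u + ∑ i, t i * Ψ i u := by
    simp only [Pi.add_apply, Finset.sum_apply, Pi.smul_apply, smul_eq_mul]
  rw [e3, Finset.sum_add_distrib]
  have e4 : ∑ i, 2 * G u * (t i * Ψ i u) = 2 * G u * ∑ i, t i * Ψ i u := by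
    rw [Finset.mul_sum]
  rw [e4]
  ring

section

variable (hW : Wt W) (hm : ∀ x, 0 < m x)

include hW hm

/-- **(H3)** of the shell lemma -/
theorem rho_H3 (hs : ∀ h, W (h + 1) = W h) {C ι : Type*} [Fintype C] [Fintype ι]
    [DecidableEq ι] {A : (C → ℝ) → V → ℝ} (hA : ∀ G G', A (G + G') = A G + A G')
    (hA' : ∀ (c : ℝ) G, A (c • G) = c • A G) (s2 : ℝ) (G : C → ℝ) (Ψ : ι → C → ℝ)
    (t : ι → ℝ) {T e0 : ℝ} (ht : ∀ i, |t i| ≤ T) (he0 : 0 ≤ e0)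
    (hpair : ∀ s : ι → ℝ, (∀ i, |s i| ≤ T) → ∀ j k, j ≠ k →
      |ddUb W m (A (G + ∑ i, s i • Ψ i)) (A (Ψ j)) (A (Ψ k))| ≤ e0) :
    |Real.log (rho W m A s2 (G + ∑ i, t i • Ψ i)) - Real.log (rho W m A s2 G) -
      ∑ i, (Real.log (rho W m A s2 (G + t i • Ψ i)) - Real.log (rho W m A s2 G)) +
        qf s2 Ψ t| ≤
      (Fintype.card ι : ℝ) * ((Fintype.card ι : ℝ) * (T ^ 2 * e0)) := by
  have hA0 : A 0 = 0 := by
    have := hA' 0 0
    simpa using this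
  have hAs : ∀ s : Finset ι, ∀ t : ι → ℝ, A (∑ i ∈ s, t i • Ψ i) =
      ∑ i ∈ s, t i • A (Ψ i) := by
    intro s t
    induction s using Finset.induction_on with
    | empty => simpa using hA0
    | insert a s ha ih => rw [Finset.sum_insert ha, Finset.sum_insert ha, hA, hA', ih]
  have h1 := decouple_Ub hW hm hs (A G) (fun i => A (Ψ i)) t ht he0 (fun s hs' j k hjk => by
    have := hpair s hs' j k hjk
    rw [hA, hAs] at this
    exact this)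
  simp only [log_rho, hA, hAs, hA']
  have h2 := sq_split G Ψ t
  have e : -(∑ u, (G + ∑ i, t i • Ψ i) u ^ 2) / (2 * s2) - Ub W m (A G + ∑ i, t i • A (Ψ i)) -
      (-(∑ u, G u ^ 2) / (2 * s2) - Ub W m (A G)) -
      ∑ i, (-(∑ u, (G + t i • Ψ i) u ^ 2) / (2 * s2) - Ub W m (A G + t i • A (Ψ i)) -
        (-(∑ u, G u ^ 2) / (2 * s2) - Ub W m (A G))) + qf s2 Ψ t =
      -(Ub W m (A G + ∑ i, t i • A (Ψ i)) - Ub W m (A G) -
        ∑ i, (Ub W m (A G + t i • A (Ψ i)) - Ub W m (A G))) := by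
    unfold qf
    rw [← h2]
    simp only [Finset.sum_sub_distrib, ← Finset.sum_div, Finset.sum_neg_distrib]
    ring
  rw [e, abs_neg]
  exact h1

/-- Taylor expansion of `Ub` along one direction -/
theorem quad_Ub (g ψ : V → ℝ) (t : ℝ) {T e3 : ℝ} (ht : |t| ≤ T)
    (h3 : ∀ s : ℝ, |s| ≤ T → |dddUb W m (g + s • ψ) ψ ψ ψ| ≤ e3) :
    |Ub W m (g + t • ψ) - Ub W m g - t * dUb W m g ψ - t ^ 2 / 2 * ddUb W m g ψ ψ| ≤
      e3 * T ^ 3 := by
  have hab : ∀ s ∈ Set.uIcc 0 t, |s| ≤ T := by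
    intro s hs'
    refine le_trans ?_ ht
    rcases le_total 0 t with h | h
    · rw [Set.uIcc_of_le h] at hs'
      rw [abs_of_nonneg hs'.1, abs_of_nonneg h]
      exact hs'.2
    · rw [Set.uIcc_of_ge h] at hs'
      rw [abs_of_nonpos hs'.2, abs_of_nonpos h]
      linarith [hs'.1]
  have h1 := taylor3 (t := t) (M := e3) (fun s _ => der_Ub hW hm g ψ s)
    (fun s _ => der_dUb hW hm g ψ ψ s) (fun s _ => der_ddUb hW hm g ψ ψ ψ s)
    (fun s hs' => h3 s (hab s hs'))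
  simp only [zero_smul, add_zero] at h1
  have he3 : 0 ≤ e3 := (abs_nonneg _).trans (h3 0 (by
    rw [abs_zero]; exact (abs_nonneg t).trans ht))
  exact h1.trans (mul_le_mul_of_nonneg_left (pow_le_pow_left₀ (abs_nonneg _) ht 3) he3)

/-- **(H4)** of the shell lemma -/
theorem rho_H4 (hs : ∀ h, W (h + 1) = W h) (hS : Sup W) (hG : Gin W m)
    {C : Type*} [Fintype C] {A : (C → ℝ) → V → ℝ}
    (hA : ∀ G G', A (G + G') = A G + A G') (hA' : ∀ (c : ℝ) G, A (c • G) = c • A G)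
    {s2 : ℝ} (hs2 : 0 < s2) (G Ψ : C → ℝ) {T e3 qb : ℝ}
    (hq : (∑ u, Ψ u ^ 2) / s2 + ddU W m 0 (A Ψ) (A Ψ) ≤ qb)
    (h3 : ∀ s : ℝ, |s| ≤ T → |dddUb W m (A (G + s • Ψ)) (A Ψ) (A Ψ) (A Ψ)| ≤ e3) :
    ∃ b r : ℝ, 0 ≤ r ∧ r ≤ qb ∧ ∀ t : ℝ, |t| ≤ T →
      |Real.log (rho W m A s2 (G + t • Ψ)) - Real.log (rho W m A s2 G) + b * t +
        r * t ^ 2 / 2| ≤ e3 * T ^ 3 := by
  refine ⟨(∑ u, G u * Ψ u) / s2 + dUb W m (A G) (A Ψ),
    (∑ u, Ψ u ^ 2) / s2 + ddUb W m (A G) (A Ψ) (A Ψ), ?_, ?_, fun t ht => ?_⟩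
  · exact add_nonneg (div_nonneg (Finset.sum_nonneg fun u _ => sq_nonneg _) hs2.le)
      (ddUb_nonneg hW hm hS hs _ _)
  · linarith [ddUb_le hW hm hG (A G) (A Ψ)]
  · have h1 := quad_Ub hW hm (A G) (A Ψ) t ht (fun s hs' => by
      have := h3 s hs'
      rw [hA, hA'] at this
      exact this)
    simp only [log_rho, hA, hA']
    have e1 : ∑ u, (G + t • Ψ) u ^ 2 = ∑ u, G u ^ 2 + 2 * t * ∑ u, G u * Ψ u +
        t ^ 2 * ∑ u, Ψ u ^ 2 := by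
      rw [Finset.mul_sum, Finset.mul_sum, ← Finset.sum_add_distrib, ← Finset.sum_add_distrib]
      refine Finset.sum_congr rfl fun u _ => ?_
      simp only [Pi.add_apply, Pi.smul_apply, smul_eq_mul]
      ring
    rw [e1]
    have e : -(∑ u, G u ^ 2 + 2 * t * ∑ u, G u * Ψ u + t ^ 2 * ∑ u, Ψ u ^ 2) / (2 * s2) -
        Ub W m (A G + t • A Ψ) - (-(∑ u, G u ^ 2) / (2 * s2) - Ub W m (A G)) +
        ((∑ u, G u * Ψ u) / s2 + dUb W m (A G) (A Ψ)) * t +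
        ((∑ u, Ψ u ^ 2) / s2 + ddUb W m (A G) (A Ψ) (A Ψ)) * t ^ 2 / 2 =
        -(Ub W m (A G + t • A Ψ) - Ub W m (A G) - t * dUb W m (A G) (A Ψ) -
          t ^ 2 / 2 * ddUb W m (A G) (A Ψ) (A Ψ)) := by
      field_simp
      ring
    rw [e, abs_neg]
    exact h1

end

end Vale.Agent.P159.TM.H104
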