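import Vale.Agent.P159.TM.H104.Mass
import Vale.Agent.P159.TM.H104.One
import Vale.Agent.P159.TM.H871.E1
import Vale.Agent.P159.TM.H215.Ident
import Vale.Agent.P159.TM.H825.Tri

/-!
P159 T1, row C4: the first three derivatives of `Ub(f) = ∫₀¹ U(f+c) dc` (letters of H871), their
kernels, and the vanishing of the sums over each slot.
-/

namespace Vale.Agent.P159.TM.H104

open Real Finset MeasureTheory
open Vale.Agent.P159.TM.H870 (gr Zr lin)
open Vale.Agent.P159.TM.H871 (Wt Ub Gin Sup)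

variable {V : Type*} [Fintype V]

/-! ### multilinearity of cumulants -/

section multi

variable {μ : (V → ℤ) → ℝ}

omit [Fintype V] in
theorem Gr.sum [Fintype V] {ι : Type*} (s : Finset ι) (c : ι → ℝ) {F : ι → (V → ℤ) → ℝ}
    (hF : ∀ i, Gr (F i)) : Gr fun h => ∑ i ∈ s, c i * F i h := by
  classical
  induction s using Finset.induction_on with
  | empty => simpa using Gr.const (V := V) 0
  | insert a s ha ih =>
    simp only [Finset.sum_insert ha]
    exact ((hF a).cmul (c a)).add ih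

theorem Ex_sum (hμ : EM μ) (u : V → ℝ) {ι : Type*} (s : Finset ι) (c : ι → ℝ)
    {F : ι → (V → ℤ) → ℝ} (hF : ∀ i, Gr (F i)) :
    Ex μ u (fun h => ∑ i ∈ s, c i * F i h) = ∑ i ∈ s, c i * Ex μ u (F i) := by
  classical
  induction s using Finset.induction_on with
  | empty => simpa using Ex_const hμ 0 u
  | insert a s ha ih =>
    simp only [Finset.sum_insert ha]
    rw [Ex_add hμ ((hF a).cmul (c a)) (Gr.sum s c hF), ih, Ex_cmul]

theorem Cv_sum (hμ : EM μ) (u : V → ℝ) {ι : Type*} (s : Finset ι) (c : ι → ℝ)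
    {F : (V → ℤ) → ℝ} {G : ι → (V → ℤ) → ℝ} (hF : Gr F) (hG : ∀ i, Gr (G i)) :
    Cv μ u F (fun h => ∑ i ∈ s, c i * G i h) = ∑ i ∈ s, c i * Cv μ u F (G i) := by
  unfold Cv
  have e1 : (fun h => F h * ∑ i ∈ s, c i * G i h) =
      fun h => ∑ i ∈ s, c i * (F h * G i h) := by
    funext h
    rw [Finset.mul_sum]
    exact Finset.sum_congr rfl fun i _ => by ring
  rw [e1, Ex_sum hμ u s c (fun i => hF.mul (hG i)), Ex_sum hμ u s c hG, Finset.mul_sum,
    ← Finset.sum_sub_distrib]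
  exact Finset.sum_congr rfl fun i _ => by ring

theorem K3_sum (hμ : EM μ) (u : V → ℝ) {ι : Type*} (s : Finset ι) (c : ι → ℝ)
    {F G : (V → ℤ) → ℝ} {H : ι → (V → ℤ) → ℝ} (hF : Gr F) (hG : Gr G) (hH : ∀ i, Gr (H i)) :
    K3 μ u F G (fun h => ∑ i ∈ s, c i * H i h) = ∑ i ∈ s, c i * K3 μ u F G (H i) := by
  unfold K3
  have e1 : (fun h => F h * G h * ∑ i ∈ s, c i * H i h) =
      fun h => ∑ i ∈ s, c i * (F h * G h * H i h) := by
    funext h
    rw [Finset.mul_sum]
    exact Finset.sum_congr rfl fun i _ => by ring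
  have e2 : (fun h => F h * ∑ i ∈ s, c i * H i h) =
      fun h => ∑ i ∈ s, c i * (F h * H i h) := by
    funext h
    rw [Finset.mul_sum]
    exact Finset.sum_congr rfl fun i _ => by ring
  have e3 : (fun h => G h * ∑ i ∈ s, c i * H i h) =
      fun h => ∑ i ∈ s, c i * (G h * H i h) := by
    funext h
    rw [Finset.mul_sum]
    exact Finset.sum_congr rfl fun i _ => by ring
  rw [e1, e2, e3, Ex_sum hμ u s c (fun i => (hF.mul hG).mul (hH i)),
    Ex_sum hμ u s c (fun i => hF.mul (hH i)), Ex_sum hμ u s c (fun i => hG.mul (hH i)),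
    Ex_sum hμ u s c hH, Finset.mul_sum, Finset.mul_sum, Finset.sum_mul, Finset.sum_mul,
    ← Finset.sum_sub_distrib, ← Finset.sum_sub_distrib, ← Finset.sum_sub_distrib,
    ← Finset.sum_add_distrib]
  exact Finset.sum_congr rfl fun i _ => by ring

theorem K3_swap12 (u : V → ℝ) (F G H : (V → ℤ) → ℝ) : K3 μ u F G H = K3 μ u G F H := by
  unfold K3
  have e1 : (fun h => F h * G h * H h) = fun h => G h * F h * H h := by
    funext h; ring
  have e2 : (fun h => F h * G h) = fun h => G h * F h := by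
    funext h; ring
  rw [e1, e2]
  ring

theorem K3_swap23 (u : V → ℝ) (F G H : (V → ℤ) → ℝ) : K3 μ u F G H = K3 μ u F H G := by
  unfold K3
  have e1 : (fun h => F h * G h * H h) = fun h => F h * H h * G h := by
    funext h; ring
  have e2 : (fun h => G h * H h) = fun h => H h * G h := by
    funext h; ring
  rw [e1, e2]
  ring

end multi

/-- coordinate -/
def co (x : V) (h : V → ℤ) : ℝ := (h x : ℝ)

theorem Gr_co (x : V) : Gr (co x : (V → ℤ) → ℝ) := by
  classical
  have h1 : (co x : (V → ℤ) → ℝ) = li (Pi.single x 1) := by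
    funext h
    unfold co li
    rw [Finset.sum_eq_single x]
    · simp
    · intro y _ hy
      rw [Pi.single_eq_of_ne hy, zero_mul]
    · intro h
      exact absurd (Finset.mem_univ x) h
  rw [h1]
  exact Gr.li _

theorem lin_co (m ψ : V → ℝ) : lin m ψ = fun h => ∑ x, (m x * ψ x) * co x h := rfl

theorem Gr_lin (m ψ : V → ℝ) : Gr (lin m ψ) := by
  rw [lin_li]
  exact Gr.li _

variable {W : (V → ℤ) → ℝ} {m : V → ℝ}

theorem Cf_lin (hm : ∀ x, 0 < m x) (hW : Wt W) (f ψ φ : V → ℝ) :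
    Cf W m f (lin m ψ) (lin m φ) =
      ∑ x, ∑ y, (m x * m y * Cf W m f (co x) (co y)) * ψ x * φ y := by
  obtain ⟨C, hC⟩ := hW.bdd
  have hμ := em_bw hm hW.nonneg hC hW.pos
  rw [Cf_eq, lin_co m φ, Cv_sum hμ _ _ _ (Gr_lin m ψ) Gr_co, Finset.sum_comm]
  refine Finset.sum_congr rfl fun y _ => ?_
  rw [Cv_comm, lin_co m ψ, Cv_sum hμ _ _ _ (Gr_co y) Gr_co, Finset.mul_sum]
  refine Finset.sum_congr rfl fun x _ => ?_
  rw [Cf_eq, Cv_comm]
  ring

theorem K3f_lin (hm : ∀ x, 0 < m x) (hW : Wt W) (f ψ φ χ : V → ℝ) :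
    K3f W m f (lin m ψ) (lin m φ) (lin m χ) =
      ∑ x, ∑ y, ∑ z, (m x * m y * m z * K3f W m f (co x) (co y) (co z)) *
        (ψ x * φ y * χ z) := by
  obtain ⟨C, hC⟩ := hW.bdd
  have hμ := em_bw hm hW.nonneg hC hW.pos
  rw [K3f_eq, K3_swap12, K3_swap23, lin_co m ψ,
    K3_sum hμ _ _ _ (Gr_lin m φ) (Gr_lin m χ) Gr_co]
  refine Finset.sum_congr rfl fun x _ => ?_
  rw [K3_swap12, K3_swap23, lin_co m φ, K3_sum hμ _ _ _ (Gr_lin m χ) (Gr_co x) Gr_co,
    Finset.mul_sum]
  refine Finset.sum_congr rfl fun y _ => ?_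
  rw [K3_swap12, K3_swap23, lin_co m χ, K3_sum hμ _ _ _ (Gr_co x) (Gr_co y) Gr_co,
    Finset.mul_sum, Finset.mul_sum]
  refine Finset.sum_congr rfl fun z _ => ?_
  rw [K3f_eq]
  ring

/-! ### shifts by constants -/

/-- background shifted by a constant -/
def sh (f : V → ℝ) (c : ℝ) : V → ℝ := fun x => f x + c

omit [Fintype V] in
theorem sh_line (f ψ : V → ℝ) (s c : ℝ) : sh (f + s • ψ) c = sh f c + s • ψ := by
  funext x
  simp only [sh, Pi.add_apply, Pi.smul_apply, smul_eq_mul]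
  ring

omit [Fintype V] in
theorem sh_eq (f : V → ℝ) (c : ℝ) : sh f c = f + c • (fun _ => (1 : ℝ)) := by
  funext x
  simp [sh]

omit [Fintype V] in
theorem sh_zero (f : V → ℝ) : sh f 0 = f := by
  funext x
  simp [sh]

omit [Fintype V] in
theorem cont_line (f ψ : V → ℝ) : Continuous fun p : ℝ × ℝ => sh (f + p.1 • ψ) p.2 := by
  refine continuous_pi fun x => ?_
  simp only [sh, Pi.add_apply, Pi.smul_apply, smul_eq_mul]
  fun_prop

omit [Fintype V] in
theorem cont_sh (f : V → ℝ) : Continuous fun c : ℝ => sh f c := by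
  refine continuous_pi fun x => ?_
  simp only [sh]
  fun_prop

theorem U_871 (W : (V → ℤ) → ℝ) (m f : V → ℝ) : H871.U W m f = U W m f := rfl

theorem Ub_871 (W : (V → ℤ) → ℝ) (m f : V → ℝ) :
    Ub W m f = ∫ c in (0 : ℝ)..1, U W m (sh f c) := rfl

/-- first derivative of `Ub` -/
noncomputable def dUb (W : (V → ℤ) → ℝ) (m f ψ : V → ℝ) : ℝ :=
  ∫ c in (0 : ℝ)..1, dU W m (sh f c) ψ

/-- second derivative of `Ub` -/
noncomputable def ddUb (W : (V → ℤ) → ℝ) (m f ψ φ : V → ℝ) : ℝ :=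
  ∫ c in (0 : ℝ)..1, ddU W m (sh f c) ψ φ

/-- third derivative of `Ub` -/
noncomputable def dddUb (W : (V → ℤ) → ℝ) (m f ψ φ χ : V → ℝ) : ℝ :=
  ∫ c in (0 : ℝ)..1, dddU W m (sh f c) ψ φ χ

section

variable (hW : Wt W) (hm : ∀ x, 0 < m x)

include hW hm

theorem cont_U : Continuous fun f : V → ℝ => U W m f := by
  obtain ⟨C, hC⟩ := hW.bdd
  exact continuous_U hm hW.nonneg hC hW.pos

theorem cont_dU (ψ : V → ℝ) : Continuous fun f : V → ℝ => dU W m f ψ := by
  obtain ⟨C, hC⟩ := hW.bdd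
  refine Continuous.sub ?_ (continuous_E hm hW.nonneg hC hW.pos (Gr_lin m ψ))
  exact continuous_finsetSum _ fun x _ => continuous_const.mul (continuous_apply x)

theorem cont_ddU (ψ φ : V → ℝ) : Continuous fun f : V → ℝ => ddU W m f ψ φ := by
  obtain ⟨C, hC⟩ := hW.bdd
  exact continuous_const.sub (continuous_C hm hW.nonneg hC hW.pos (Gr_lin m ψ) (Gr_lin m φ))

theorem cont_dddU (ψ φ χ : V → ℝ) : Continuous fun f : V → ℝ => dddU W m f ψ φ χ := by
  obtain ⟨C, hC⟩ := hW.bdd
  have hE : ∀ {F : (V → ℤ) → ℝ}, Gr F → Continuous fun f : V → ℝ => H870.Ex W m f F :=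
    fun hF => continuous_E hm hW.nonneg hC hW.pos hF
  have g1 := Gr_lin m ψ
  have g2 := Gr_lin m φ
  have g3 := Gr_lin m χ
  unfold dddU K3f
  exact ((((hE ((g1.mul g2).mul g3)).sub ((hE (g1.mul g2)).mul (hE g3))).sub
    ((hE (g1.mul g3)).mul (hE g2))).sub ((hE (g2.mul g3)).mul (hE g1))).add
    (((continuous_const.mul (hE g1)).mul (hE g2)).mul (hE g3)) |>.neg

theorem der_U (f ψ : V → ℝ) (s : ℝ) :
    HasDerivAt (fun s : ℝ => U W m (f + s • ψ)) (dU W m (f + s • ψ) ψ) s := by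
  obtain ⟨C, hC⟩ := hW.bdd
  exact hasDerivAt_U hm hW.nonneg hC hW.pos f ψ s

theorem der_dU (f ψ φ : V → ℝ) (s : ℝ) :
    HasDerivAt (fun s : ℝ => dU W m (f + s • φ) ψ) (ddU W m (f + s • φ) ψ φ) s := by
  obtain ⟨C, hC⟩ := hW.bdd
  exact hasDerivAt_dU hm hW.nonneg hC hW.pos f ψ φ s

theorem der_ddU (f ψ φ χ : V → ℝ) (s : ℝ) :
    HasDerivAt (fun s : ℝ => ddU W m (f + s • χ) ψ φ) (dddU W m (f + s • χ) ψ φ χ) s := by
  obtain ⟨C, hC⟩ := hW.bdd
  exact hasDerivAt_ddU hm hW.nonneg hC hW.pos f ψ φ χ s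

theorem der_Ub (f ψ : V → ℝ) (s : ℝ) :
    HasDerivAt (fun s : ℝ => Ub W m (f + s • ψ)) (dUb W m (f + s • ψ) ψ) s := by
  simp only [Ub_871]
  unfold dUb
  refine hasDerivAt_int (F := fun s c => U W m (sh (f + s • ψ) c))
    (F' := fun s c => dU W m (sh (f + s • ψ) c) ψ) ((cont_U hW hm).comp (cont_line f ψ))
    ((cont_dU hW hm ψ).comp (cont_line f ψ)) (fun s c => ?_) s
  have h1 := der_U hW hm (sh f c) ψ s
  simp only [sh_line]
  exact h1

theorem der_dUb (f ψ φ : V → ℝ) (s : ℝ) :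
    HasDerivAt (fun s : ℝ => dUb W m (f + s • φ) ψ) (ddUb W m (f + s • φ) ψ φ) s := by
  unfold dUb ddUb
  refine hasDerivAt_int (F := fun s c => dU W m (sh (f + s • φ) c) ψ)
    (F' := fun s c => ddU W m (sh (f + s • φ) c) ψ φ) ((cont_dU hW hm ψ).comp (cont_line f φ))
    ((cont_ddU hW hm ψ φ).comp (cont_line f φ)) (fun s c => ?_) s
  have h1 := der_dU hW hm (sh f c) ψ φ s
  simp only [sh_line]
  exact h1

theorem der_ddUb (f ψ φ χ : V → ℝ) (s : ℝ) :
    HasDerivAt (fun s : ℝ => ddUb W m (f + s • χ) ψ φ) (dddUb W m (f + s • χ) ψ φ χ) s := by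
  unfold ddUb dddUb
  refine hasDerivAt_int (F := fun s c => ddU W m (sh (f + s • χ) c) ψ φ)
    (F' := fun s c => dddU W m (sh (f + s • χ) c) ψ φ χ)
    ((cont_ddU hW hm ψ φ).comp (cont_line f χ))
    ((cont_dddU hW hm ψ φ χ).comp (cont_line f χ)) (fun s c => ?_) s
  have h1 := der_ddU hW hm (sh f c) ψ φ χ s
  simp only [sh_line]
  exact h1

theorem cont_ddUb_line (f ψ φ χ : V → ℝ) :
    Continuous fun s : ℝ => ddUb W m (f + s • χ) ψ φ :=
  continuous_iff_continuousAt.2 fun s => (der_ddUb hW hm f ψ φ χ s).continuousAt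

/-! ### periodicity and slot sums -/

theorem dU_per (hs : ∀ h, W (h + 1) = W h) (f ψ : V → ℝ) :
    dU W m (sh f 1) ψ = dU W m f ψ := by
  have h1 := der_U hW hm (sh f 1) ψ 0
  have h2 := der_U hW hm f ψ 0
  simp only [zero_smul, add_zero] at h1 h2
  have e : (fun s : ℝ => U W m (sh f 1 + s • ψ)) = fun s : ℝ => U W m (f + s • ψ) := by
    funext s
    rw [← sh_line]
    exact H871.U_shift hs _
  rw [e] at h1
  exact h1.unique h2

theorem ddU_per (hs : ∀ h, W (h + 1) = W h) (f ψ φ : V → ℝ) :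
    ddU W m (sh f 1) ψ φ = ddU W m f ψ φ := by
  have h1 := der_dU hW hm (sh f 1) ψ φ 0
  have h2 := der_dU hW hm f ψ φ 0
  simp only [zero_smul, add_zero] at h1 h2
  have e : (fun s : ℝ => dU W m (sh f 1 + s • φ) ψ) = fun s : ℝ => dU W m (f + s • φ) ψ := by
    funext s
    rw [← sh_line]
    exact dU_per hW hm hs _ _
  rw [e] at h1
  exact h1.unique h2

theorem ddUb_one (hs : ∀ h, W (h + 1) = W h) (f ψ : V → ℝ) :
    ddUb W m f ψ (fun _ => 1) = 0 := by
  unfold ddUb
  have h1 : ∀ c : ℝ, HasDerivAt (fun c : ℝ => dU W m (sh f c) ψ)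
      (ddU W m (sh f c) ψ fun _ => 1) c := by
    intro c
    have := der_dU hW hm f ψ (fun _ => (1 : ℝ)) c
    simp only [← sh_eq] at this
    exact this
  rw [intervalIntegral.integral_eq_sub_of_hasDerivAt (fun c _ => h1 c)
    (((cont_ddU hW hm ψ _).comp (cont_sh f)).intervalIntegrable _ _),
    dU_per hW hm hs, sh_zero, sub_self]

theorem dddUb_one (hs : ∀ h, W (h + 1) = W h) (f ψ φ : V → ℝ) :
    dddUb W m f ψ φ (fun _ => 1) = 0 := by
  unfold dddUb
  have h1 : ∀ c : ℝ, HasDerivAt (fun c : ℝ => ddU W m (sh f c) ψ φ)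
      (dddU W m (sh f c) ψ φ fun _ => 1) c := by
    intro c
    have := der_ddU hW hm f ψ φ (fun _ => (1 : ℝ)) c
    simp only [← sh_eq] at this
    exact this
  rw [intervalIntegral.integral_eq_sub_of_hasDerivAt (fun c _ => h1 c)
    (((cont_dddU hW hm ψ φ _).comp (cont_sh f)).intervalIntegrable _ _),
    ddU_per hW hm hs, sh_zero, sub_self]

/-! ### kernels -/

omit hW hm in
/-- averaged covariance kernel -/
noncomputable def Hk (W : (V → ℤ) → ℝ) (m f : V → ℝ) (x y : V) : ℝ :=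
  ∫ c in (0 : ℝ)..1, m x * m y * Cf W m (sh f c) (co x) (co y)

omit hW hm in
/-- kernel of the third derivative of `Ub` -/
noncomputable def T3 (W : (V → ℤ) → ℝ) (m f : V → ℝ) (x y z : V) : ℝ :=
  -∫ c in (0 : ℝ)..1, m x * m y * m z * K3f W m (sh f c) (co x) (co y) (co z)

omit hW hm in
/-- kernel of the second derivative of `Ub` -/
noncomputable def Jk [DecidableEq V] (W : (V → ℤ) → ℝ) (m f : V → ℝ) (x y : V) : ℝ :=
  (if x = y then m x else 0) - Hk W m f x y

omit hm in
theorem cont_Cco (hm : ∀ x, 0 < m x) (f : V → ℝ) (x y : V) :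
    Continuous fun c : ℝ => m x * m y * Cf W m (sh f c) (co x) (co y) := by
  obtain ⟨C, hC⟩ := hW.bdd
  exact continuous_const.mul
    ((continuous_C hm hW.nonneg hC hW.pos (Gr_co x) (Gr_co y)).comp (cont_sh f))

theorem cont_Kco (f : V → ℝ) (x y z : V) :
    Continuous fun c : ℝ => m x * m y * m z * K3f W m (sh f c) (co x) (co y) (co z) := by
  obtain ⟨C, hC⟩ := hW.bdd
  have hE : ∀ {F : (V → ℤ) → ℝ}, Gr F → Continuous fun f : V → ℝ => H870.Ex W m f F :=
    fun hF => continuous_E hm hW.nonneg hC hW.pos hF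
  have g1 := Gr_co x
  have g2 := Gr_co y
  have g3 := Gr_co z
  unfold K3f
  exact continuous_const.mul ((((((hE ((g1.mul g2).mul g3)).sub
    ((hE (g1.mul g2)).mul (hE g3))).sub
    ((hE (g1.mul g3)).mul (hE g2))).sub ((hE (g2.mul g3)).mul (hE g1))).add
    (((continuous_const.mul (hE g1)).mul (hE g2)).mul (hE g3))).comp (cont_sh f))

omit hW hm in
theorem Hk_symm (W : (V → ℤ) → ℝ) (m f : V → ℝ) (x y : V) : Hk W m f x y = Hk W m f y x := by
  unfold Hk
  refine intervalIntegral.integral_congr fun c _ => ?_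
  simp only [Cf_eq]
  rw [Cv_comm, mul_comm (m x) (m y)]

theorem ddUb_kernel (f ψ φ : V → ℝ) :
    ddUb W m f ψ φ = ∑ x, m x * ψ x * φ x - ∑ x, ∑ y, Hk W m f x y * ψ x * φ y := by
  have hc : ∀ x y, Continuous fun c : ℝ =>
      m x * m y * Cf W m (sh f c) (co x) (co y) * ψ x * φ y :=
    fun x y => ((cont_Cco hW hm f x y).mul continuous_const).mul continuous_const
  have hc1 : ∀ x, Continuous fun c : ℝ =>
      ∑ y, m x * m y * Cf W m (sh f c) (co x) (co y) * ψ x * φ y :=
    fun x => continuous_finsetSum _ fun y _ => hc x y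
  have hc2 : Continuous fun c : ℝ =>
      ∑ x, ∑ y, m x * m y * Cf W m (sh f c) (co x) (co y) * ψ x * φ y :=
    continuous_finsetSum _ fun x _ => hc1 x
  unfold ddUb ddU
  simp only [Cf_lin hm hW]
  rw [intervalIntegral.integral_sub (continuous_const.intervalIntegrable _ _)
    (hc2.intervalIntegrable _ _)]
  rw [intervalIntegral.integral_const]
  congr 1
  · simp
  · rw [intervalIntegral.integral_finsetSum fun x _ => (hc1 x).intervalIntegrable _ _]
    refine Finset.sum_congr rfl fun x _ => ?_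
    rw [intervalIntegral.integral_finsetSum fun y _ => (hc x y).intervalIntegrable _ _]
    refine Finset.sum_congr rfl fun y _ => ?_
    rw [intervalIntegral.integral_mul_const, intervalIntegral.integral_mul_const]
    rfl

theorem dddUb_kernel (f ψ φ χ : V → ℝ) :
    dddUb W m f ψ φ χ = ∑ x, ∑ y, ∑ z, T3 W m f x y z * (ψ x * φ y * χ z) := by
  have hc : ∀ x y z, Continuous fun c : ℝ =>
      m x * m y * m z * K3f W m (sh f c) (co x) (co y) (co z) * (ψ x * φ y * χ z) :=
    fun x y z => (cont_Kco hW hm f x y z).mul continuous_const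
  have hc1 : ∀ x y, Continuous fun c : ℝ => ∑ z,
      m x * m y * m z * K3f W m (sh f c) (co x) (co y) (co z) * (ψ x * φ y * χ z) :=
    fun x y => continuous_finsetSum _ fun z _ => hc x y z
  have hc2 : ∀ x, Continuous fun c : ℝ => ∑ y, ∑ z,
      m x * m y * m z * K3f W m (sh f c) (co x) (co y) (co z) * (ψ x * φ y * χ z) :=
    fun x => continuous_finsetSum _ fun y _ => hc1 x y
  unfold dddUb dddU
  simp only [K3f_lin hm hW]
  rw [intervalIntegral.integral_neg,
    intervalIntegral.integral_finsetSum fun x _ => (hc2 x).intervalIntegrable _ _,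
    ← Finset.sum_neg_distrib]
  refine Finset.sum_congr rfl fun x _ => ?_
  rw [intervalIntegral.integral_finsetSum fun y _ => (hc1 x y).intervalIntegrable _ _,
    ← Finset.sum_neg_distrib]
  refine Finset.sum_congr rfl fun y _ => ?_
  rw [intervalIntegral.integral_finsetSum fun z _ => (hc x y z).intervalIntegrable _ _,
    ← Finset.sum_neg_distrib]
  refine Finset.sum_congr rfl fun z _ => ?_
  rw [intervalIntegral.integral_mul_const]
  unfold T3
  ring

omit hW hm in
theorem T3_swap12 (W : (V → ℤ) → ℝ) (m f : V → ℝ) (x y z : V) :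
    T3 W m f x y z = T3 W m f y x z := by
  unfold T3
  congr 1
  refine intervalIntegral.integral_congr fun c _ => ?_
  simp only [K3f_eq]
  rw [K3_swap12]
  ring

omit hW hm in
theorem T3_swap23 (W : (V → ℤ) → ℝ) (m f : V → ℝ) (x y z : V) :
    T3 W m f x y z = T3 W m f x z y := by
  unfold T3
  congr 1
  refine intervalIntegral.integral_congr fun c _ => ?_
  simp only [K3f_eq]
  rw [K3_swap23]
  ring

theorem T3_slot3 (hs : ∀ h, W (h + 1) = W h) (f : V → ℝ) (x y : V) :
    ∑ z, T3 W m f x y z = 0 := by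
  classical
  have h1 := dddUb_kernel hW hm f (Pi.single x 1) (Pi.single y 1) (fun _ => 1)
  rw [dddUb_one hW hm hs] at h1
  rw [Finset.sum_eq_single x, Finset.sum_eq_single y] at h1
  · rw [h1]
    refine Finset.sum_congr rfl fun z _ => ?_
    simp
  · intro b _ hb
    refine Finset.sum_eq_zero fun z _ => ?_
    rw [Pi.single_eq_of_ne hb]
    ring
  · intro h
    exact absurd (Finset.mem_univ y) h
  · intro b _ hb
    refine Finset.sum_eq_zero fun y _ => Finset.sum_eq_zero fun z _ => ?_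
    rw [Pi.single_eq_of_ne hb]
    ring
  · intro h
    exact absurd (Finset.mem_univ x) h

theorem T3_slot2 (hs : ∀ h, W (h + 1) = W h) (f : V → ℝ) (x z : V) :
    ∑ y, T3 W m f x y z = 0 := by
  rw [← T3_slot3 hW hm hs f x z]
  exact Finset.sum_congr rfl fun y _ => T3_swap23 W m f x y z

theorem T3_slot1 (hs : ∀ h, W (h + 1) = W h) (f : V → ℝ) (y z : V) :
    ∑ x, T3 W m f x y z = 0 := by
  rw [← T3_slot2 hW hm hs f y z]
  exact Finset.sum_congr rfl fun x _ => T3_swap12 W m f x y z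

theorem Hk_row (hs : ∀ h, W (h + 1) = W h) (f : V → ℝ) (x : V) :
    ∑ y, Hk W m f x y = m x := by
  classical
  have h1 := ddUb_kernel hW hm f (Pi.single x 1) (fun _ => 1)
  rw [ddUb_one hW hm hs] at h1
  rw [Finset.sum_eq_single x, Finset.sum_eq_single x] at h1
  · have e : ∑ y, Hk W m f x y * (Pi.single x 1 : V → ℝ) x * 1 = ∑ y, Hk W m f x y :=
      Finset.sum_congr rfl fun y _ => by simp
    rw [e] at h1
    simp only [Pi.single_eq_same, mul_one] at h1
    linarith
  · intro b _ hb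
    refine Finset.sum_eq_zero fun y _ => ?_
    rw [Pi.single_eq_of_ne hb]
    ring
  · intro h
    exact absurd (Finset.mem_univ x) h
  · intro b _ hb
    rw [Pi.single_eq_of_ne hb]
    ring
  · intro h
    exact absurd (Finset.mem_univ x) h

/-- **the second derivative of `Ub` is a graph form.** -/
theorem ddUb_graph (hs : ∀ h, W (h + 1) = W h) (f ψ φ : V → ℝ) :
    ddUb W m f ψ φ = 1 / 2 * ∑ x, ∑ y, Hk W m f x y * ((ψ x - ψ y) * (φ x - φ y)) := by
  classical
  have hsym : ∀ x y, Jk W m f x y = Jk W m f y x := by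
    intro x y
    unfold Jk
    rw [Hk_symm W m f x y]
    by_cases h : x = y
    · subst h; rfl
    · rw [if_neg h, if_neg (Ne.symm h)]
  have hrow : ∀ x, ∑ y, Jk W m f x y = 0 := by
    intro x
    unfold Jk
    rw [Finset.sum_sub_distrib, Hk_row hW hm hs]
    simp
  have h1 := H215.hess_id (Jk W m f) hsym hrow ψ φ
  have e1 : ∑ x, ∑ y, Jk W m f x y * ψ x * φ y = ddUb W m f ψ φ := by
    rw [ddUb_kernel hW hm, ← Finset.sum_sub_distrib]
    refine Finset.sum_congr rfl fun x _ => ?_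
    unfold Jk
    have e2 : ∀ y, ((if x = y then m x else 0) - Hk W m f x y) * ψ x * φ y =
        (if x = y then m x * ψ x * φ y else 0) - Hk W m f x y * ψ x * φ y := by
      intro y
      split_ifs <;> ring
    simp only [e2, Finset.sum_sub_distrib]
    simp
  rw [e1] at h1
  rw [h1, ← mul_neg_one (1 / 2 : ℝ), mul_assoc, neg_one_mul, ← Finset.sum_neg_distrib]
  congr 1
  refine Finset.sum_congr rfl fun x _ => ?_
  rw [← Finset.sum_neg_distrib]
  refine Finset.sum_congr rfl fun y _ => ?_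
  unfold Jk
  by_cases h : x = y
  · subst h; ring
  · rw [if_neg h]; ring

end

end Vale.Agent.P159.TM.H104
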